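import Vale.Agent.P247B.Res

/-!
# P247, block BETTI: counting dimensions on a compact Riemann surface
-/

set_option linter.all false

open scoped Topology Manifold ContDiff ComplexConjugate
open Set Filter Metric MeasureTheory Complex

noncomputable section

namespace Vale.Agent.P247B

open Vale.Agent.P247C Vale.Agent.P247C.RT Vale.Agent.P247C.RSp

section

variable {M : Type} [TopologicalSpace M] [ChartedSpace ℂ M] [IsManifold 𝓘(ℂ) 1 M]

/-- the space of holomorphic forms -/
def holSub (M : Type) [TopologicalSpace M] [ChartedSpace ℂ M] [IsManifold 𝓘(ℂ) 1 M] :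
    Submodule ℂ (M → ℂ) where
  carrier := {η | HolForm η}
  add_mem' := fun {a b} ha hb σ z h => by
    rw [show pbk (a + b) σ = _ from pbk_add a b σ]
    exact (ha σ z h).add (hb σ z h)
  zero_mem' := fun σ z _ => analyticAt_const.congr (f := fun _ => 0)
    (Eventually.of_forall fun t => (zero_mul _).symm)
  smul_mem' := fun c a ha σ z h => (analyticAt_const.mul (ha σ z h)).congr (f := fun t =>
    c * pbk a σ t) (Eventually.of_forall fun t => (mul_assoc _ _ _).symm)

theorem dB_cmul (c : ℂ) {p : M → ℂ} {m : M} (h : Sm1 p m) :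
    dB (fun y => c * p y) m = c * dB p m := by
  unfold dB
  rw [pbk_mul (fun _ => c)]
  have := (d_mul (differentiableAt_const c) (dif (h _ _ (ch_facts m).1 (ch_facts m).2.1))).2
  rw [dbr_const, zero_mul, zero_add] at this
  exact this

variable [T2Space M] [CompactSpace M]

theorem IM_im {δ : M → ℂ} (h : ∀ m, C2 δ m) : IM (fun m => ((δ m).im : ℂ)) = (IM δ).im := by
  have e : ∀ a : ℂ, (a.im : ℂ) = (-I / 2) * (a + (-1) * conj a) := fun a => by
    apply Complex.ext <;> simp <;> ring
  simp only [e]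
  rw [IM_cmul, IM_add h fun m => (h m).conj.mul continuousAt_const, IM_cmul, IM_conj]

theorem iso {p θ : M → ℂ} {W W' : M → ℝ} (hp : ∀ m, Sm1 p m) (hr : ∀ m, (dB p m).im = 0)
    (hW : ∀ m, SmF (fun y => (W y : ℂ)) m) (hW' : ∀ m, SmF (fun y => (W' y : ℂ)) m)
    (hθ : HolForm θ) (e : ∀ m, p m = θ m + dF (fun y => (W y : ℂ)) m)
    (h0 : (IM fun m => p m * conj (I * θ m + dF (fun y => (W' y : ℂ)) m)).im = 0) (m : M) :
    θ m = 0 := by
  have hI : HolForm fun m => I * θ m := (holSub M).smul_mem I hθ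
  have s1 := sm1_hol hθ
  have s2 := sm1_hol hI
  have s3 := fun m => sm1_dF (m := m) (Eventually.of_forall hW)
  have s4 := fun m => sm1_dF (m := m) (Eventually.of_forall hW')
  have a1 := IM_exact hW' hp hr
  have a2 := IM_exact hW s2 fun m => by rw [dB_hol hI, zero_im]
  have a3 : (fun m => p m * conj (I * θ m + dF (fun y => (W' y : ℂ)) m)) = fun m =>
      (-I * (θ m * conj (θ m)) + conj (I * θ m * conj (dF (fun y => (W y : ℂ)) m))) +
        p m * conj (dF (fun y => (W' y : ℂ)) m) := by
    funext m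
    simp only [map_add, map_mul, conj_I, conj_conj, e]
    ring
  have c1 : ∀ m, C2 (fun m => -I * (θ m * conj (θ m))) m := fun m =>
    (c2_pair (s1 m) (s1 m)).mul continuousAt_const
  have c2 := fun m => (c2_pair (s2 m) (s3 m)).conj
  rw [a3, IM_add (fun m => (c1 m).add (c2 m)) fun m => c2_pair (hp m) (s4 m), IM_add c1 c2,
    IM_cmul, IM_conj, add_im, add_im, a1, conj_im, a2] at h0
  have a4 : (IM fun m => θ m * conj (θ m)).im = 0 := by
    rw [← conj_eq_iff_im, ← IM_conj]
    congr 1; funext m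
    rw [map_mul, conj_conj, mul_comm]
  refine IM_pos s1 (Complex.ext ?_ a4) m
  simpa using h0

end

theorem count (hR : RSH) (M : Type) [RS M] {b : ℕ} (p : Fin b → M → ℂ) (hp : ∀ i m, Sm1 (p i) m)
    (hr : ∀ i m, (dB (p i) m).im = 0) :
    ∃ (N : Submodule ℝ (Fin b → ℝ)) (W : Fin b → M → ℝ) (H : Submodule ℂ (M → ℂ)),
      FiniteDimensional ℂ H ∧ (∀ η ∈ H, HolForm η) ∧ (∀ i m, SmF (fun y => (W i y : ℂ)) m) ∧
      (∀ h ∈ N, ∀ m, ∑ i, (h i : ℂ) * dF (fun y => (W i y : ℂ)) m = ∑ i, (h i : ℂ) * p i m) ∧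
      b ≤ 2 * Module.finrank ℂ H + Module.finrank ℝ N ∧
      ((∀ i j, (IM fun m => p i m * conj (p j m)).im = 0) →
        b ≤ Module.finrank ℂ H + Module.finrank ℝ N) := by
  choose W hW hθ using fun i => hR M (p i) (hp i) (hr i)
  set θ : Fin b → M → ℂ := fun i m => p i m - dF (fun y => (W i y : ℂ)) m with hθd
  set L : (Fin b → ℝ) →ₗ[ℝ] (M → ℂ) := Fintype.linearCombination ℝ θ with hL
  have hLa : ∀ h m, L h m = ∑ i, (h i : ℂ) * θ i m := fun h m => by
    simp [hL, Fintype.linearCombination_apply]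
  set H := Submodule.span ℂ (range θ) with hH
  have hfin : FiniteDimensional ℂ H := FiniteDimensional.span_of_finite ℂ (finite_range θ)
  have hhol : H ≤ holSub M := Submodule.span_le.2 (by rintro _ ⟨i, rfl⟩; exact hθ i)
  have hle : LinearMap.range L ≤ H.restrictScalars ℝ := by
    rintro _ ⟨h, rfl⟩
    rw [hL, Fintype.linearCombination_apply]
    exact Submodule.sum_mem _ fun i _ =>
      Submodule.smul_mem _ _ (Submodule.subset_span (mem_range_self i))
  have hfinR : FiniteDimensional ℝ (H.restrictScalars ℝ) := FiniteDimensional.complexToReal H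
  have hd : Module.finrank ℝ (H.restrictScalars ℝ) = 2 * Module.finrank ℂ H :=
    finrank_real_of_complex H
  have h1 := LinearMap.finrank_range_add_finrank_ker L
  rw [Module.finrank_fin_fun] at h1
  have h2 := Submodule.finrank_mono hle
  refine ⟨LinearMap.ker L, W, H, hfin, fun η hη => hhol hη, hW, fun h hh m => ?_, by omega,
    fun h0 => ?_⟩
  · have := hLa h m
    rw [hh, Pi.zero_apply] at this
    simp only [hθd, mul_sub, Finset.sum_sub_distrib] at this
    exact (sub_eq_zero.1 this.symm).symm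
  have hI : Function.Injective ((LinearMap.lsmul ℂ (M → ℂ) I).restrictScalars ℝ) :=
    LinearMap.lsmul_injective I_ne_zero
  set R' := (LinearMap.range L).map ((LinearMap.lsmul ℂ (M → ℂ) I).restrictScalars ℝ) with hR'
  have h3 : Module.finrank ℝ (LinearMap.range L) = Module.finrank ℝ R' :=
    (Submodule.equivMapOfInjective _ hI _).finrank_eq
  have h4 : LinearMap.range L ⊔ R' ≤ H.restrictScalars ℝ := sup_le hle (by
    rintro _ ⟨a, ha, rfl⟩
    exact H.smul_mem I (hle ha))
  have hWs : ∀ (h : Fin b → ℝ) m, SmF (fun y => ((∑ i, h i * W i y : ℝ) : ℂ)) m ∧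
      dF (fun y => ((∑ i, h i * W i y : ℝ) : ℂ)) m =
        ∑ i, (h i : ℂ) * dF (fun y => (W i y : ℂ)) m := fun h m => by
    simp only [ofReal_sum, ofReal_mul]
    refine ⟨smF_sum _ fun i _ => (smF_const _ m).mul (hW i m), ?_⟩
    rw [dF_sum _ fun i _ => (smF_const _ m).mul (hW i m)]
    exact Finset.sum_congr rfl fun i _ => dF_cmul _ (hW i m)
  have hdec : ∀ (h : Fin b → ℝ) m, ∑ i, (h i : ℂ) * p i m =
      L h m + dF (fun y => ((∑ i, h i * W i y : ℝ) : ℂ)) m := fun h m => by
    rw [hLa, (hWs h m).2, ← Finset.sum_add_distrib]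
    exact Finset.sum_congr rfl fun i _ => by simp only [hθd]; ring
  have h5 : LinearMap.range L ⊓ R' = ⊥ := by
    rw [eq_bot_iff]
    rintro _ ⟨⟨h', rfl⟩, _, ⟨h, rfl⟩, e⟩
    have e' : ∀ m, I * L h m = L h' m := fun m => congrFun e m
    have hs : ∀ i m, Sm1 (fun y => (h i : ℂ) * p i y) m := fun i m => (hp i m).mul (smF_const _ m)
    have := iso (p := fun m => ∑ i, (h i : ℂ) * p i m) (θ := L h) (fun m => sm1_sum _ fun i _ =>
      hs i m) (fun m => by
        rw [dB_sum _ fun i _ => hs i m, im_sum]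
        exact Finset.sum_eq_zero fun i _ => by rw [dB_cmul _ (hp i m), im_ofReal_mul, hr, mul_zero])
      (fun m => (hWs h m).1) (fun m => (hWs h' m).1) (hhol (hle ⟨h, rfl⟩)) (hdec h) (by
        have c : ∀ i j m, C2 (fun y => ((h i * h' j : ℝ) : ℂ) * (p i y * conj (p j y))) m :=
          fun i j m => (c2_pair (hp i m) (hp j m)).mul continuousAt_const
        have e2 : (fun m => (∑ i, (h i : ℂ) * p i m) * conj (I * L h m +
            dF (fun y => ((∑ i, h' i * W i y : ℝ) : ℂ)) m)) =
            fun m => ∑ i, ∑ j, ((h i * h' j : ℝ) : ℂ) * (p i m * conj (p j m)) := by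
          funext m
          rw [e', ← hdec, map_sum, Finset.sum_mul_sum]
          refine Finset.sum_congr rfl fun i _ => Finset.sum_congr rfl fun j _ => ?_
          rw [map_mul, conj_ofReal, ofReal_mul]; ring
        rw [e2, IM_sum _ fun i _ m => c2_sum _ fun j _ => c i j m, im_sum]
        refine Finset.sum_eq_zero fun i _ => ?_
        rw [IM_sum _ fun j _ => c i j, im_sum]
        exact Finset.sum_eq_zero fun j _ => by rw [IM_cmul, im_ofReal_mul, h0, mul_zero])
    exact funext fun m => by rw [← e', this, mul_zero]; rfl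
  have h6 := Submodule.finrank_sup_add_finrank_inf_eq (LinearMap.range L) R'
  have h7 := Submodule.finrank_mono h4
  rw [h5, finrank_bot] at h6
  omega

end Vale.Agent.P247B
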