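import Vale.Agent.P247B.Im
import Vale.Agent.P247C.Vf
import Vale.Agent.P247C.T5

/-!
# P247, block BETTI: the current of a curve is an integral over the normalisation
-/

set_option linter.all false

open scoped Topology Manifold ContDiff ComplexConjugate
open Set Filter Metric MeasureTheory Complex

noncomputable section

namespace Vale.Agent.P247B

open Vale.Agent.P247X Vale.Agent.P247.SCY Vale.Agent.P247.SCY.HS Vale.Agent.P247C
  Vale.Agent.P247C.RT Vale.Agent.P247C.VF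

variable {X : Type} [Cl4 X] {J : EndF X} {K : Irr J} (ν : Nrm J K.K) {σ : ℂ → ν.M} {z : ℂ}

theorem n_sm (h : HolAt σ z) : ContMDiffAt 𝓘(ℝ, ℂ) (𝓡 4) ∞ (ν.n ∘ σ) z := by
  obtain ⟨N, u, U, hb⟩ := irr_loc K _ (mem_K ν (σ z))
  obtain ⟨l, ζ, a1, a2, -, a4⟩ := plot_br ν hb h rfl
  have hz : ζ z ∈ ball (0 : ℂ) 2 := by rw [a2]; exact mem_ball_self two_pos
  exact ContMDiffAt.congr_of_eventuallyEq ((hb.cmd l hz).comp z (cd_an a1).contMDiffAt) a4

theorem n_md (h : HolAt σ z) : MDifferentiableAt 𝓘(ℝ, ℂ) (𝓡 4) (ν.n ∘ σ) z :=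
  (n_sm ν h).mdifferentiableAt (by simp)

/-- the pull-back of a two-form to the normalisation -/
def dens (φ : Form X 2) (m : ν.M) : ℂ :=
  (pull2 φ (ν.n ∘ (chartAt ℂ m).symm) (chartAt ℂ m m) : ℝ)

theorem pb2_dens (φ : Form X 2) (h : HolAt σ z) :
    pb2 (dens ν φ) σ z = (pull2 φ (ν.n ∘ σ) z : ℝ) := by
  obtain ⟨a1, a2, a3⟩ := ch_facts (σ z)
  obtain ⟨ζ, a, b, c⟩ := fac h a1 a2.symm (by rw [a3]; exact one_ne_zero)
  have h1 : ν.n ∘ σ =ᶠ[𝓝 z] fun t => (ν.n ∘ (chartAt ℂ (σ z)).symm) (ζ t) :=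
    c.mono fun t ht => congrArg ν.n ht
  rw [pull2_congr h1, pull2_comp φ (hasF_mulC a.differentiableAt.hasDerivAt)
    (by rw [b]; exact n_md ν a1), det_mulC, b, pb2, dM_congr c,
    dM_comp (by rw [b]; exact a1.self) a.differentiableAt, b, a3, one_mul, mul_conj, dens,
    ofReal_mul, mul_comm]

theorem c2_dens {φ : Form X 2} (hφ : Cont φ) (m : ν.M) : C2 (dens ν φ) m := fun σ z h _ => by
  have ho : IsOpen {t | HolAt σ t} := isOpen_setOf_eventually_nhds
  have h1 := (contOn_pull2 hφ ho fun t ht => (n_sm ν ht).contMDiffWithinAt).continuousAt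
    (ho.mem_nhds h)
  exact (continuous_ofReal.continuousAt.comp h1).congr
    (h.ev.mono fun t ht => (pb2_dens ν φ ht).symm)

theorem dens_zero {φ : Form X 2} {m : ν.M} (h : φ (ν.n m) = 0) : dens ν φ m = 0 := by
  rw [dens, pull2_zero (by rw [Function.comp_apply, (ch_facts m).2.1]; exact h), ofReal_zero]

theorem lin_dens : LinC fun φ => (IM (dens ν φ)).re where
  add φ ψ hφ hψ := by
    rw [← add_re, ← IM_add (c2_dens ν hφ) (c2_dens ν hψ)]
    congr 2; funext m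
    exact ofReal_add _ _
  smul c φ _ := by
    rw [← re_ofReal_mul, ← IM_cmul]
    congr 2; funext m
    exact ofReal_mul _ _

/-- the link -/
theorem link {φ : Form X 2} (hφ : Cont φ) : K.T φ = (IM (dens ν φ)).re := by
  classical
  refine lin_ext' K.lin (lin_dens ν) hφ (U := univ)
    ⟨univ, isCompact_univ, Subset.rfl, fun x hx => absurd trivial hx⟩ fun x _ => ?_
  by_cases hx : x ∉ K.K
  · refine ⟨K.Kᶜ, K.cpt.isClosed.isOpen_compl.mem_nhds hx, fun ψ h1 h2 => ?_⟩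
    rw [inter_univ] at h2
    rw [K.off ψ h1 h2, show dens ν ψ = fun _ => 0 from funext fun m =>
      dens_zero ν (SuppIn_zero h2 fun h => h (mem_K ν m)), IM_zero, zero_re]
  obtain ⟨N, u, U, hb, hT⟩ := K.loc x (not_not.1 hx)
  obtain ⟨σ, r, hr, s1, s2, s3⟩ := ν.lift x N u U hb
  set ρ := min r 1 with hρ
  have hρ0 : 0 < ρ := lt_min hr one_pos
  have b1 : ball (0 : ℂ) ρ ⊆ ball 0 r := ball_subset_ball (min_le_left _ _)
  have b2 : ball (0 : ℂ) ρ ⊆ ball 0 1 := ball_subset_ball (min_le_right _ _)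
  refine ⟨_, hb.near_zero hρ0, fun ψ h1 h2 => ?_⟩
  rw [inter_univ] at h2
  rw [hT ψ h1 (SuppIn_mono h2 fun y hy => hy.1)]
  obtain ⟨C, c1, c2, c3⟩ := h2
  have hh : ∀ l, ∀ z ∈ ball (0 : ℂ) ρ, HolAt (σ l) z ∧ ν.n ∘ σ l =ᶠ[𝓝 z] u l := fun l z hz =>
    ⟨(isOpen_ball.eventually_mem (b1 hz)).mono fun t ht => (s1 l t ht).2.1,
      (isOpen_ball.eventually_mem (b1 hz)).mono fun t ht => (s1 l t ht).1⟩
  have hn : ∀ l, ∀ z ∈ ball (0 : ℂ) ρ, ν.n (σ l z) = u l z := fun l z hz => (s1 l z (b1 hz)).1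
  have hinj : ∀ l l', ∀ z ∈ ball (0 : ℂ) ρ, ∀ z' ∈ ball (0 : ℂ) ρ, σ l z = σ l' z' →
      l = l' ∧ z = z' := fun l l' z hz z' hz' e => by
    rcases hb.inj l l' z (b12 (b2 hz)) z' (b12 (b2 hz')) (by rw [← hn l z hz, e, hn l' z' hz'])
      with h | ⟨rfl, rfl⟩
    exacts [h, ⟨s3 l l' e, rfl⟩]
  set D : Fin N → ν.M → ℂ := fun l m => if m ∈ σ l '' ball 0 ρ then dens ν ψ m else 0 with hD
  set A : Fin N → Set ℂ := fun l => closedBall 0 1 ∩ u l ⁻¹' C with hA
  have A1 : ∀ l, IsCompact (A l) := fun l => (isCompact_closedBall 0 1).of_isClosed_subset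
    (((hb.smooth l).continuousOn.mono cb12).preimage_isClosed_of_isClosed isClosed_closedBall
      c1.isClosed) inter_subset_left
  have A2 : ∀ l, A l ⊆ ball 0 ρ := fun l z hz => (c2 hz.2).2 l z (cb12 hz.1) rfl
  have D0 : ∀ l m, m ∉ σ l '' A l → D l m = 0 := fun l m hm => by
    simp only [hD]
    split_ifs with h
    · obtain ⟨z, hz, rfl⟩ := h
      exact dens_zero ν (c3 _ fun e => hm ⟨z, ⟨ball_subset_closedBall (b2 hz),
        show u l z ∈ C from hn l z hz ▸ e⟩, rfl⟩)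
    · rfl
  have Dc : ∀ l m, C2 (D l) m := fun l m => by
    by_cases hm : m ∈ σ l '' ball 0 ρ
    · obtain ⟨z, hz, rfl⟩ := hm
      refine (c2_dens ν h1 _).congr ?_
      have : σ l '' ball 0 ρ ∈ 𝓝 (σ l z) := by
        rw [← map_hol (hh l z hz).1 (s1 l z (b1 hz)).2.2]
        exact image_mem_map (isOpen_ball.mem_nhds hz)
      filter_upwards [this] with y hy using if_pos hy
    · have hc : IsClosed (σ l '' A l) := ((A1 l).image_of_continuousOn fun z hz =>
        (hh l z (A2 l hz)).1.self.continuousAt.continuousWithinAt).isClosed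
      refine (c2_zero m).congr ?_
      filter_upwards [hc.isOpen_compl.mem_nhds fun h => hm (image_mono (A2 l) h)] with y hy
        using D0 l y hy
  have hsum : dens ν ψ = fun m => ∑ l, D l m := by
    funext m
    by_cases hm : ν.n m ∈ C
    · obtain ⟨l, z, hz, e⟩ : ∃ l, ∃ z ∈ ball (0 : ℂ) ρ, σ l z = m := by
        obtain ⟨l, z, hz, e⟩ := hb.cov _ (c2 hm).1 (mem_K ν m)
        by_cases h0 : z = 0
        · obtain ⟨l', e'⟩ := s2 m (by rw [← e, h0, hb.zero])
          exact ⟨l', 0, mem_ball_self hρ0, e'.symm⟩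
        · have hz' := (c2 hm).2 l z (b12 hz) e
          exact ⟨l, z, hz', fib_one ν (hb.regPt (b12 hz) h0 (e ▸ (c2 hm).1)) (hn l z hz') e.symm⟩
      rw [Finset.sum_eq_single_of_mem l (Finset.mem_univ l) fun l' _ hl => if_neg
        fun ⟨z', hz', e'⟩ => hl (hinj l' l z' hz' z hz (e'.trans e.symm)).1]
      exact (if_pos ⟨z, hz, e⟩).symm
    · have h0 := dens_zero ν (c3 _ hm)
      simp [hD, h0]
  rw [hsum, IM_sum _ fun l _ => Dc l, re_sum]
  refine Finset.sum_congr rfl fun l _ => ?_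
  rw [IM_plot isOpen_ball (fun z hz => (hh l z hz).1)
    (fun z hz z' hz' e => (hinj l l z hz z' hz' e).2) (A1 l) (A2 l) (Dc l) (D0 l),
    setIntegral_congr_fun (g := fun z => (pull2 ψ (u l) z : ℂ)) measurableSet_ball fun z hz => by
      beta_reduce
      rw [← pull2_congr (hh l z hz).2, ← pb2_dens ν ψ (hh l z hz).1]
      simp only [pb2, hD, if_pos (mem_image_of_mem _ hz)], integral_complex_ofReal, ofReal_re]
  exact setIntegral_eq_of_subset_of_forall_sdiff_eq_zero measurableSet_ball b2 fun z hz =>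
    pull2_zero (c3 _ fun e => hz.2 (A2 l ⟨ball_subset_closedBall hz.1, e⟩))

end Vale.Agent.P247B
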