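import Vale.Agent.P247B.Jump
import Vale.Agent.P247B.Lnk
import Vale.Agent.P247B.Hod
import Vale.Agent.P247C.All
import Vale.Agent.P247A.H1z
import Vale.Agent.P247A.Lef

/-!
# P247, block BETTI: the first Betti number and curves of positive square
-/

set_option linter.all false

open scoped Topology Manifold ContDiff ComplexConjugate
open Set Filter Metric MeasureTheory Complex

noncomputable section

namespace Vale.Agent.P247B.Jmp

open Vale.Agent.P247X Vale.Agent.P247A Vale.Agent.P247C Vale.Agent.P247C.RT Vale.Agent.P247C.VF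
open Vale.Agent.P247.SCY Vale.Agent.P247.SCY.HS

variable {X : Type} [Cl4 X] {μ : Form X 4} {w : Tri X}

theorem dens_cup {J : EndF X} {K : Irr J} (ν : Nrm J K.K) {g g' : X → ℂ} {β : Form X 2}
    (h : IsCup g g' β) (m : ν.M) :
    dens ν β m = 4 * ((pA ν (ang g) m * conj (pA ν (ang g') m)).im : ℂ) := by
  have e : ∀ (y : X) (a b : HS.E4), y = ν.n m → β y ![a, b] =
      ang g (ν.n m) a * ang g' (ν.n m) b - ang g (ν.n m) b * ang g' (ν.n m) a := by
    rintro _ a b rfl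
    exact h _ a b
  have e1 : dens ν β m = ((ang g (ν.n m) (vec ν m 1) * ang g' (ν.n m) (vec ν m I) -
      ang g (ν.n m) (vec ν m I) * ang g' (ν.n m) (vec ν m 1) : ℝ) : ℂ) :=
    congrArg ofReal (e _ _ _ (congrArg ν.n (ch_facts m).2.1))
  rw [e1, pA, pA]
  generalize ang g (ν.n m) (vec ν m 1) = a, ang g (ν.n m) (vec ν m I) = b,
    ang g' (ν.n m) (vec ν m 1) = c, ang g' (ν.n m) (vec ν m I) = d
  apply Complex.ext <;> simp [map_ofNat] <;> ring

theorem kerle (hL : LEF_statement) (hμ : Volume μ) (hw : Hypersymplectic μ w) {b : ℕ}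
    (B : H1B X b) (K : Irr (Jw w)) {α : Form X 2} (hα : IsCls μ K.T α) (hp : 0 < K.T α)
    (ν : Nrm (Jw w) K.K) (P : Finset X) (n : X → ℕ)
    (hP : ∀ x ∈ P, ∃ (u : Fin (n x + 1) → ℂ → X) (U : Set X), BrsX (Jw w) K.K x (n x + 1) u U)
    (hR : ∀ x ∈ K.K, x ∉ P → RegPt (Jw w) K.K x) {W : Fin b → ν.M → ℝ}
    (hW : ∀ i m, SmF (fun y => (W i y : ℂ)) m) (N : Submodule ℝ (Fin b → ℝ))
    (hN : ∀ h ∈ N, ∀ m, ∑ i, (h i : ℂ) * dF (fun y => (W i y : ℂ)) m =
      ∑ i, (h i : ℂ) * pA ν (ang (B.g i)) m) : Module.finrank ℝ N ≤ ∑ x ∈ P, n x := by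
  obtain ⟨s, t, hst⟩ := fibres (ν := ν) P n hP hR
  let Φ : N →ₗ[ℝ] ((Σ x : P, Fin (n x)) → ℝ) :=
    (Fintype.linearCombination ℝ fun i j => W i (s j) - W i (t j)) ∘ₗ N.subtype
  have hΦ : Function.Injective Φ := (injective_iff_map_eq_zero Φ).2 fun ⟨h, hh⟩ h0 => by
    have h2 : ∀ j, ∑ i, h i * (W i (s j) - W i (t j)) = 0 := fun j => by
      simpa [Φ, Fintype.linearCombination_apply] using congrFun h0 j
    have e : (fun y => ((∑ i, h i * W i y : ℝ) : ℂ)) = fun y => ∑ i, (h i : ℂ) * (W i y : ℂ) :=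
      funext fun y => by push_cast; rfl
    have h3 : ∀ i m, SmF (fun y => (h i : ℂ) * (W i y : ℂ)) m := fun i m =>
      (smF_const _ m).mul (hW i m)
    obtain ⟨f, hf⟩ := descend (ν := ν) (irr_loc K)
      (LocP.sum Finset.univ (fun i => locP_ang (B.circ i)) h) (W := fun y => ∑ i, h i * W i y)
      (fun m => by rw [e]; exact smF_sum _ fun i _ => h3 i m) (fun m => by
        rw [e, dF_sum _ fun i _ => h3 i m, pA_sum, ← hN h hh]
        exact Finset.sum_congr rfl fun i _ => (dF_cmul _ (hW i m)).symm)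
      (hst _ fun j => by
        rw [← sub_eq_zero, ← h2 j, ← Finset.sum_sub_distrib]
        exact Finset.sum_congr rfl fun i _ => (mul_sub _ _ _).symm)
    exact Subtype.ext (hL X μ hμ w hw b B K α hα hp h f hf)
  simpa [Finset.sum_attach P n] using LinearMap.finrank_le_finrank_of_injective hΦ

/-- a vector field whose total order is at least `2 g - 2` -/
theorem field (hμ : Volume μ) (hw : Hypersymplectic μ w) (K : Irr (Jw w)) (ν : Nrm (Jw w) K.K)
    (H : Submodule ℂ (ν.M → ℂ)) [FiniteDimensional ℂ H] (hH : ∀ η ∈ H, HolForm η) :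
    ∃ (P : Finset X) (E : ∀ x : X, TangentSpace (𝓡 4) x) (o : X → ℤ), ↑P ⊆ K.K ∧
      VFd (Jw w) K.K P E o ∧ 2 * (Module.finrank ℂ H : ℤ) ≤ ∑ p ∈ P, o p + 2 := by
  classical
  by_cases h : ∃ θ : ν.M → ℂ, HolForm θ ∧ ∃ m, θ m ≠ 0
  · obtain ⟨θ, hθ, h0⟩ := h
    obtain ⟨ord, h1, -, h3⟩ := mvf_form hθ h0
    obtain ⟨P, E, a1, a2, a3⟩ := vfd_of ν (jw_sq hw) K.cpt (irr_loc K) h1
    refine ⟨P, E, _, a1, a3, (res_ineq hθ h1 h3 H hH).trans_eq ?_⟩
    rw [← Finset.sum_fiberwise_of_maps_to (g := ν.n) fun m hm => a2 m (h1.fin.mem_toFinset.1 hm)]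
    congr 1
    refine Finset.sum_congr rfl fun p _ => (finsum_mem_eq_sum_of_inter_support_eq _ ?_).symm
    ext m
    simp only [mem_inter_iff, mem_preimage, mem_singleton_iff, Finset.coe_filter, mem_setOf_eq,
      Finite.mem_toFinset, Function.mem_support]
    exact ⟨fun a => ⟨⟨by_contra fun c => a.2 (h1.ord0 m c), a.1⟩, a.2⟩, fun a => ⟨a.1.2, a.2⟩⟩
  · obtain ⟨u, v, huv⟩ := (dich ν.M).resolve_left h
    obtain ⟨P, E, o, a1, a2, a3⟩ := vfb X μ hμ w hw K ν u v huv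
    have e : H = ⊥ := (Submodule.eq_bot_iff H).2 fun η hη =>
      funext fun m => by_contra fun c => h ⟨η, hH η hη, m, c⟩
    exact ⟨P, E, o, a1, a2, by rw [a3, e, finrank_bot]; norm_num⟩

end Vale.Agent.P247B.Jmp

namespace Vale.Agent.P247B

open Vale.Agent.P247X Vale.Agent.P247A Vale.Agent.P247C Jmp

/-- **BETTI** -/
theorem betti (hL : LEF_statement) : BETTI_statement := by
  classical
  intro X _ μ hμ w hw b B K α hα hp
  obtain ⟨ν⟩ := nrm X μ hμ w hw K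
  have hs := fun i => sm1_pA (ν := ν) (irr_loc K) (locP_ang (B.circ i))
  obtain ⟨N, W, H, hfin, hH, hW, hN, h1, h2⟩ := P247B.count rsh ν.M (fun i => pA ν (ang (B.g i))) hs
    fun i => dB_pA (irr_loc K) (locP_ang (B.circ i))
  obtain ⟨P, E, o, a1, a2, a3⟩ := field hμ hw K ν H hH
  obtain ⟨Δ, a4, a5⟩ := adjc X μ hμ w hw K α hα P E o a1 a2
  have a6 : ∀ p, ∃ n : ℕ, p ∈ P → (∃ (u : Fin (n + 1) → ℂ → X) (U : Set X),
      BrsX (Jw w) K.K p (n + 1) u U) ∧ 2 * n ≤ Δ p := fun p => by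
    by_cases hp : p ∈ P
    · obtain ⟨N, u, U, hb, e, -⟩ := a5 p hp
      obtain ⟨n, rfl⟩ := Nat.exists_eq_succ_of_ne_zero hb.posN.ne'
      refine ⟨n, fun _ => ⟨⟨u, U, hb⟩, ?_⟩⟩
      rw [Nat.succ_sub_one] at e
      rcases n with _ | n
      · simp
      · nlinarith [Nat.succ_eq_add_one (n + 1)]
    · exact ⟨0, fun h => absurd h hp⟩
  choose n hn using a6
  have a7 := kerle hL hμ hw B K hα hp ν P n (fun x hx => (hn x hx).1)
    (fun x hx h => by
      obtain ⟨N, u, U, hb⟩ := irr_loc K x hx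
      obtain ⟨rfl, h1⟩ := (a2.reg x hx h).2 N u U hb
      exact ⟨u, U, hb, (h1 0).1⟩) hW N hN
  have a8 : 2 * ∑ p ∈ P, n p ≤ ∑ p ∈ P, Δ p := by
    rw [Finset.mul_sum]
    exact Finset.sum_le_sum fun p hp => (hn p hp).2
  have a9 : K.T α = ((∑ p ∈ P, o p + (∑ p ∈ P, Δ p : ℕ) : ℤ) : ℝ) := by
    rw [a4, Finset.sum_add_distrib]
    push_cast
    rfl
  refine ⟨?_, fun h0 => ?_⟩
  · rw [a9]
    exact_mod_cast (by omega : (b : ℤ) ≤ ∑ p ∈ P, o p + (∑ p ∈ P, Δ p : ℕ) + 2)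
  · have h3 := h2 fun i j => by
      obtain ⟨L, c, -⟩ := cup X μ _ _ (B.circ i) (B.circ j)
      have h4 := h0 i j _ c
      rw [link ν L.F_sc.cont, funext (dens_cup ν c), IM_cmul,
        IM_im fun m => c2_pair (hs i m) (hs j m)] at h4
      simpa using h4
    rw [a9]
    exact_mod_cast (by omega : 2 * (b : ℤ) ≤ ∑ p ∈ P, o p + (∑ p ∈ P, Δ p : ℕ) + 2)

theorem betti_of_bp (hB : BP_statement) : BETTI_statement := betti (lef_of_bp hB)

end Vale.Agent.P247B
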