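import Vale.Agent.P247C.Vf0
import Vale.Agent.P247C.T2

/-!
# P247, block BETTI: Wirtinger calculus on the plane and on Riemann surfaces
-/

set_option linter.all false

open scoped Topology Manifold ContDiff ComplexConjugate
open Set Filter Metric MeasureTheory Complex

noncomputable section

namespace Vale.Agent.P247B

open Vale.Agent.P247C Vale.Agent.P247C.RT

/-- `∂ f / ∂ z` -/
def del (f : ℂ → ℂ) (z : ℂ) : ℂ := (fderiv ℝ f z 1 - I * fderiv ℝ f z I) / 2

/-- `∂ f / ∂ z̄` -/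
def dbr (f : ℂ → ℂ) (z : ℂ) : ℂ := (fderiv ℝ f z 1 + I * fderiv ℝ f z I) / 2

section plane

variable {f g ζ : ℂ → ℂ} {z : ℂ}

theorem del_congr (h : f =ᶠ[𝓝 z] g) : del f z = del g z := by
  unfold del; rw [h.fderiv_eq]

theorem dbr_congr (h : f =ᶠ[𝓝 z] g) : dbr f z = dbr g z := by
  unfold dbr; rw [h.fderiv_eq]

theorem del_congr' (h : f =ᶠ[𝓝 z] g) : del f =ᶠ[𝓝 z] del g :=
  h.eventually_nhds.mono fun _ a => del_congr a

theorem dbr_congr' (h : f =ᶠ[𝓝 z] g) : dbr f =ᶠ[𝓝 z] dbr g :=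
  h.eventually_nhds.mono fun _ a => dbr_congr a

theorem lin_expand (L : ℂ →L[ℝ] ℂ) (a : ℂ) : L a = a.re * L 1 + a.im * L I := by
  have h : a = a.re • (1 : ℂ) + a.im • I := by apply Complex.ext <;> simp
  conv_lhs => rw [h, map_add, map_smul, map_smul]
  simp

theorem fderiv_eq (f : ℂ → ℂ) (z a : ℂ) : fderiv ℝ f z a = del f z * a + dbr f z * conj a := by
  rw [lin_expand, del, dbr]
  have h1 : conj a = a.re - a.im * I := by apply Complex.ext <;> simp
  rw [h1]
  conv_rhs => rw [← re_add_im a]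
  simp only [add_re, ofReal_re, mul_re, I_re, mul_zero, ofReal_im, I_im, mul_one, sub_self,
    add_zero, add_im, mul_im, zero_add]
  linear_combination ((a.im : ℂ) * fderiv ℝ f z I) * I_mul_I

theorem of_has {L : ℂ →L[ℝ] ℂ} (h : HasFDerivAt f L z) {p q : ℂ}
    (hL : ∀ a, L a = p * a + q * conj a) : del f z = p ∧ dbr f z = q := by
  unfold del dbr
  rw [h.fderiv, hL, hL, conj_I, map_one]
  constructor
  · linear_combination ((q - p) / 2) * I_mul_I
  · linear_combination ((p - q) / 2) * I_mul_I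

theorem del_const (c z : ℂ) : del (fun _ => c) z = 0 := by simp [del]

theorem dbr_const (c z : ℂ) : dbr (fun _ => c) z = 0 := by simp [dbr]

theorem d_add (hf : DifferentiableAt ℝ f z) (hg : DifferentiableAt ℝ g z) :
    del (fun t => f t + g t) z = del f z + del g z ∧
      dbr (fun t => f t + g t) z = dbr f z + dbr g z :=
  of_has (hf.hasFDerivAt.fun_add hg.hasFDerivAt) fun a => by
    rw [ContinuousLinearMap.add_apply, fderiv_eq, fderiv_eq]; ring

theorem d_sub (hf : DifferentiableAt ℝ f z) (hg : DifferentiableAt ℝ g z) :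
    del (fun t => f t - g t) z = del f z - del g z ∧
      dbr (fun t => f t - g t) z = dbr f z - dbr g z :=
  of_has (hf.hasFDerivAt.fun_sub hg.hasFDerivAt) fun a => by
    rw [ContinuousLinearMap.sub_apply, fderiv_eq, fderiv_eq]; ring

theorem d_mul (hf : DifferentiableAt ℝ f z) (hg : DifferentiableAt ℝ g z) :
    del (fun t => f t * g t) z = del f z * g z + f z * del g z ∧
      dbr (fun t => f t * g t) z = dbr f z * g z + f z * dbr g z :=
  of_has (hf.hasFDerivAt.fun_mul hg.hasFDerivAt) fun a => by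
    simp only [ContinuousLinearMap.add_apply, ContinuousLinearMap.smul_apply, smul_eq_mul]
    rw [fderiv_eq, fderiv_eq]; ring

theorem d_sum {ι : Type} (s : Finset ι) {F : ι → ℂ → ℂ}
    (h : ∀ i ∈ s, DifferentiableAt ℝ (F i) z) :
    del (fun t => ∑ i ∈ s, F i t) z = ∑ i ∈ s, del (F i) z ∧
      dbr (fun t => ∑ i ∈ s, F i t) z = ∑ i ∈ s, dbr (F i) z :=
  of_has (HasFDerivAt.fun_sum fun i hi => (h i hi).hasFDerivAt) fun a => by
    rw [ContinuousLinearMap.sum_apply, Finset.sum_mul, Finset.sum_mul, ← Finset.sum_add_distrib]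
    exact Finset.sum_congr rfl fun i _ => fderiv_eq _ _ _

theorem d_hol (h : DifferentiableAt ℂ ζ z) : del ζ z = deriv ζ z ∧ dbr ζ z = 0 :=
  of_has (hasF_mulC h.hasDerivAt) fun a => by rw [mulC_apply]; ring

theorem d_comp (hf : DifferentiableAt ℝ f (ζ z)) (h : DifferentiableAt ℂ ζ z) :
    del (f ∘ ζ) z = del f (ζ z) * deriv ζ z ∧ dbr (f ∘ ζ) z = dbr f (ζ z) * conj (deriv ζ z) :=
  of_has (hf.hasFDerivAt.comp z (hasF_mulC h.hasDerivAt)) fun a => by
    rw [ContinuousLinearMap.comp_apply, mulC_apply, fderiv_eq, map_mul]; ring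

theorem d_conj (hf : DifferentiableAt ℝ f z) :
    del (fun t => conj (f t)) z = conj (dbr f z) ∧ dbr (fun t => conj (f t)) z = conj (del f z) :=
  of_has (conjCLE.toContinuousLinearMap.hasFDerivAt.comp z hf.hasFDerivAt) fun a => by
    show conj (fderiv ℝ f z a) = _
    rw [fderiv_eq, map_add, map_mul, map_mul, conj_conj]; ring

theorem dbr_real {u : ℂ → ℝ} (hu : DifferentiableAt ℝ u z) :
    dbr (fun t => (u t : ℂ)) z = conj (del (fun t => (u t : ℂ)) z) := by
  have := (d_conj (ofRealCLM.differentiableAt.comp z hu)).2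
  simpa [Function.comp_def] using this

theorem hol_of_dbr (hf : DifferentiableAt ℝ f z) (h : dbr f z = 0) : DifferentiableAt ℂ f z := by
  refine (hasFDerivAt_of_restrictScalars ℝ (f' := ContinuousLinearMap.toSpanSingleton ℂ (del f z))
    hf.hasFDerivAt ?_).differentiableAt
  refine ContinuousLinearMap.ext fun a => ?_
  rw [fderiv_eq, h]
  simp [mul_comm]

theorem cd_fd (hf : ContDiffAt ℝ ∞ f z) (a : ℂ) : ContDiffAt ℝ ∞ (fun t => fderiv ℝ f t a) z :=
  (hf.fderiv_right (m := ∞) (by simp)).clm_apply contDiffAt_const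

theorem cd_del (hf : ContDiffAt ℝ ∞ f z) : ContDiffAt ℝ ∞ (del f) z :=
  ((cd_fd hf 1).sub (contDiffAt_const.mul (cd_fd hf I))).div_const 2

theorem cd_dbr (hf : ContDiffAt ℝ ∞ f z) : ContDiffAt ℝ ∞ (dbr f) z :=
  ((cd_fd hf 1).add (contDiffAt_const.mul (cd_fd hf I))).div_const 2

theorem dif (hf : ContDiffAt ℝ ∞ f z) : DifferentiableAt ℝ f z := hf.differentiableAt (by simp)

theorem dif_ev (hf : ContDiffAt ℝ ∞ f z) : ∀ᶠ t in 𝓝 z, DifferentiableAt ℝ f t :=
  ((hf.of_le (m := 1) (by simp)).eventually (by simp)).mono fun _ a =>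
    a.differentiableAt (by simp)

theorem cd_an (h : AnalyticAt ℂ ζ z) : ContDiffAt ℝ ∞ ζ z := h.contDiffAt.restrict_scalars ℝ

theorem cd_conj (hf : ContDiffAt ℝ ∞ f z) : ContDiffAt ℝ ∞ (fun t => conj (f t)) z :=
  conjCLE.contDiff.contDiffAt.comp z hf

theorem dbr_del (hf : ContDiffAt ℝ ∞ f z) : dbr (del f) z = del (dbr f) z := by
  have h1 : HasFDerivAt (fderiv ℝ f) (fderiv ℝ (fderiv ℝ f) z) z :=
    ((hf.fderiv_right (m := ∞) (by simp)).differentiableAt (by simp)).hasFDerivAt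
  have h2 : ∀ a, HasFDerivAt (fun w => fderiv ℝ f w a)
      ((fderiv ℝ (fderiv ℝ f) z).flip a) z := fun a => by
    simpa using h1.clm_apply (hasFDerivAt_const a z)
  have h3 := hf.isSymmSndFDerivAt minS 1 I
  have a1 := (((h2 1).fun_sub ((h2 I).const_mul I)).mul_const (2 : ℂ)⁻¹).fderiv
  have a2 := (((h2 1).fun_add ((h2 I).const_mul I)).mul_const (2 : ℂ)⁻¹).fderiv
  have e1 : del f = fun w => (fderiv ℝ f w 1 - I * fderiv ℝ f w I) * (2 : ℂ)⁻¹ := by
    funext w; rw [del, div_eq_mul_inv]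
  have e2 : dbr f = fun w => (fderiv ℝ f w 1 + I * fderiv ℝ f w I) * (2 : ℂ)⁻¹ := by
    funext w; rw [dbr, div_eq_mul_inv]
  rw [e1, e2, dbr, del, a1, a2]
  simp only [ContinuousLinearMap.smul_apply, ContinuousLinearMap.sub_apply,
    ContinuousLinearMap.add_apply, ContinuousLinearMap.flip_apply, smul_eq_mul, h3]
  ring

/-- the Laplacian of a real function is real -/
theorem lap_real {u : ℂ → ℝ} (hu : ContDiffAt ℝ ∞ (fun t => (u t : ℂ)) z) :
    (dbr (del fun t => (u t : ℂ)) z).im = 0 := by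
  rw [← conj_eq_iff_im, ← (d_conj (dif (cd_del hu))).1, dbr_del hu]
  refine del_congr ?_
  filter_upwards [dif_ev hu] with t ht
  have h : DifferentiableAt ℝ u t := by
    simpa [Function.comp_def] using reCLM.differentiableAt.comp t ht
  exact (dbr_real h).symm

/-- Stokes on the plane -/
theorem int_dbr (hf : ContDiff ℝ ∞ f) (hc : HasCompactSupport f) : ∫ z, dbr f z = 0 := by
  have h1 : ∀ v, Integrable (fun z => fderiv ℝ f z v) := fun v =>
    ((hf.continuous_fderiv (by simp)).clm_apply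
      continuous_const).integrable_of_hasCompactSupport (hc.fderiv_apply (𝕜 := ℝ) v)
  have h2 : ∀ v, ∫ z, fderiv ℝ f z v = 0 := fun v => by
    have := integral_mul_fderiv_eq_neg_fderiv_mul_of_integrable (μ := (volume : Measure ℂ))
      (f := fun _ => (1 : ℂ)) (g := f) (v := v) (by simp) (by simpa using h1 v)
      (by simpa using hf.continuous.integrable_of_hasCompactSupport hc)
      (by fun_prop) (fun x _ => hf.differentiable (by simp) x)
    simpa using this
  simp only [dbr]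
  rw [integral_div, integral_add (h1 _) ((h1 _).const_mul _), integral_const_mul, h2, h2]
  simp

end plane

variable {M : Type} [TopologicalSpace M] [ChartedSpace ℂ M]

/-- the pull-back of a density (`δ m` is its coefficient in the preferred chart at `m`) -/
def pb2 (δ : M → ℂ) (σ : ℂ → M) (z : ℂ) : ℂ := δ (σ z) * (dM σ z * conj (dM σ z))

/-- smooth functions -/
def SmF (f : M → ℂ) (m : M) : Prop :=
  ∀ (σ : ℂ → M) (z : ℂ), HolAt σ z → σ z = m → ContDiffAt ℝ ∞ (f ∘ σ) z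

/-- smooth `(1,0)`-forms -/
def Sm1 (p : M → ℂ) (m : M) : Prop :=
  ∀ (σ : ℂ → M) (z : ℂ), HolAt σ z → σ z = m → ContDiffAt ℝ ∞ (pbk p σ) z

/-- continuous densities -/
def C2 (δ : M → ℂ) (m : M) : Prop :=
  ∀ (σ : ℂ → M) (z : ℂ), HolAt σ z → σ z = m → ContinuousAt (pb2 δ σ) z

/-- `∂` of a function -/
def dF (f : M → ℂ) (m : M) : ℂ := del (f ∘ (chartAt ℂ m).symm) (chartAt ℂ m m)

/-- `∂̄` of a `(1,0)`-form -/
def dB (p : M → ℂ) (m : M) : ℂ := dbr (pbk p (chartAt ℂ m).symm) (chartAt ℂ m m)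

/-- row RSH: the Hodge decomposition of a closed real one-form `2 Re (p dz)` -/
def RSH : Prop := ∀ (M : Type) [RS M] (p : M → ℂ), (∀ m, Sm1 p m) → (∀ m, (dB p m).im = 0) →
  ∃ W : M → ℝ, (∀ m, SmF (fun y => (W y : ℂ)) m) ∧
    HolForm fun m => p m - dF (fun y => (W y : ℂ)) m

variable [IsManifold 𝓘(ℂ) 1 M] {σ σ' : ℂ → M} {ζ : ℂ → ℂ} {z z' : ℂ} {f g p q δ δ' : M → ℂ} {m : M}

theorem hol_symm {e : OpenPartialHomeomorph M ℂ} (he : e ∈ atlas ℂ M) (hz : z ∈ e.target) :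
    HolAt e.symm z := by
  filter_upwards [e.open_target.mem_nhds hz] with t ht
  exact (mdifferentiable_of_mem_atlas he).mdifferentiableAt_symm ht

theorem dM_symm_ne {e : OpenPartialHomeomorph M ℂ} (he : e ∈ atlas ℂ M) (hz : z ∈ e.target) :
    dM e.symm z ≠ 0 := by
  have := d1_symm (mdifferentiable_of_mem_atlas he) (e.map_target hz)
  rw [e.right_inv hz] at this
  exact left_ne_zero_of_mul_eq_one this

theorem ch_facts (m : M) : HolAt (chartAt ℂ m).symm (chartAt ℂ m m) ∧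
    (chartAt ℂ m).symm (chartAt ℂ m m) = m ∧ dM (chartAt ℂ m).symm (chartAt ℂ m m) = 1 :=
  ⟨hol_symm (chart_mem_atlas ℂ m) (mem_chart_target ℂ m),
    (chartAt ℂ m).left_inv (mem_chart_source ℂ m), d1_chart_symm m⟩

/-- factorisation, with the transformation rules -/
theorem fac2 (h : HolAt σ z) (h' : HolAt σ' z') (he : σ z = σ' z') (hd : dM σ' z' ≠ 0) :
    ∃ ζ : ℂ → ℂ, AnalyticAt ℂ ζ z ∧ ζ z = z' ∧ dM σ z = dM σ' z' * deriv ζ z ∧
      (∀ f : M → ℂ, f ∘ σ =ᶠ[𝓝 z] (f ∘ σ') ∘ ζ) ∧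
      (∀ p : M → ℂ, pbk p σ =ᶠ[𝓝 z] fun t => (pbk p σ' ∘ ζ) t * deriv ζ t) ∧
      ∀ δ : M → ℂ, pb2 δ σ =ᶠ[𝓝 z] fun t => (pb2 δ σ' ∘ ζ) t * (deriv ζ t * conj (deriv ζ t)) := by
  obtain ⟨ζ, a, b, c⟩ := fac h h' he hd
  have ht : Tendsto ζ (𝓝 z) (𝓝 z') := b ▸ a.continuousAt
  have hdM : ∀ᶠ t in 𝓝 z, dM σ t = dM σ' (ζ t) * deriv ζ t := by
    filter_upwards [c.eventually_nhds, ht.eventually h', a.eventually_analyticAt] with t a1 a2 a3
    rw [dM_congr a1, dM_comp a2 a3.differentiableAt]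
  refine ⟨ζ, a, b, b ▸ hdM.self_of_nhds, fun f => c.mono fun t ht => congrArg f ht, fun p => ?_,
    fun δ => ?_⟩
  · filter_upwards [c, hdM] with t a1 a2
    simp only [pbk, Function.comp_apply, a1, a2, mul_assoc]
  · filter_upwards [c, hdM] with t a1 a2
    simp only [pb2, Function.comp_apply, a1, a2, map_mul]
    ring

theorem smF_of (h' : HolAt σ' z') (hd : dM σ' z' ≠ 0) (H : ContDiffAt ℝ ∞ (f ∘ σ') z') :
    SmF f (σ' z') := fun σ z h he => by
  obtain ⟨ζ, a, rfl, -, c, -⟩ := fac2 h h' he hd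
  exact (H.comp z (cd_an a)).congr_of_eventuallyEq (c f)

theorem sm1_of (h' : HolAt σ' z') (hd : dM σ' z' ≠ 0) (H : ContDiffAt ℝ ∞ (pbk p σ') z') :
    Sm1 p (σ' z') := fun σ z h he => by
  obtain ⟨ζ, a, rfl, -, -, c, -⟩ := fac2 h h' he hd
  exact ((H.comp z (cd_an a)).mul (cd_an a.deriv)).congr_of_eventuallyEq (c p)

theorem c2_of (h' : HolAt σ' z') (hd : dM σ' z' ≠ 0) (H : ContinuousAt (pb2 δ σ') z') :
    C2 δ (σ' z') := fun σ z h he => by
  obtain ⟨ζ, a, rfl, -, -, -, c⟩ := fac2 h h' he hd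
  exact ((H.comp a.continuousAt).mul (a.deriv.continuousAt.mul
    (continuous_conj.continuousAt.comp a.deriv.continuousAt))).congr (c δ).symm

theorem pbk_dF (h : HolAt σ z) (hf : SmF f (σ z)) : pbk (dF f) σ z = del (f ∘ σ) z := by
  obtain ⟨a1, a2, a3⟩ := ch_facts (σ z)
  obtain ⟨ζ, a, b, c, d, -⟩ := fac2 h a1 a2.symm (by rw [a3]; exact one_ne_zero)
  rw [del_congr (d f), (d_comp (by rw [b]; exact dif (hf _ _ a1 a2)) a.differentiableAt).1, b, pbk,
    c, a3, one_mul, dF]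

theorem pb2_dB (h : HolAt σ z) (hp : Sm1 p (σ z)) : pb2 (dB p) σ z = dbr (pbk p σ) z := by
  obtain ⟨a1, a2, a3⟩ := ch_facts (σ z)
  obtain ⟨ζ, a, b, c, -, d, -⟩ := fac2 h a1 a2.symm (by rw [a3]; exact one_ne_zero)
  have h1 : DifferentiableAt ℝ (pbk p (chartAt ℂ (σ z)).symm) (ζ z) := by
    rw [b]; exact dif (hp _ _ a1 a2)
  rw [dbr_congr (d p), (d_mul (h1.comp z (dif (cd_an a))) (dif (cd_an a.deriv))).2,
    (d_comp h1 a.differentiableAt).2, (d_hol a.deriv.differentiableAt).2, b, pb2, c, a3, one_mul,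
    dB]
  ring

theorem ev_pull (h : HolAt σ z) {P : M → Prop} (hP : ∀ᶠ y in 𝓝 (σ z), P y) :
    ∀ᶠ t in 𝓝 z, HolAt σ t ∧ P (σ t) := h.ev.and (h.self.continuousAt.eventually hP)

theorem sm1_dF (hf : ∀ᶠ y in 𝓝 m, SmF f y) : Sm1 (dF f) m := by
  rintro σ z h rfl
  refine (cd_del (hf.self_of_nhds σ z h rfl)).congr_of_eventuallyEq ?_
  filter_upwards [ev_pull h hf] with t a using pbk_dF a.1 a.2

theorem c2_dB (hp : ∀ᶠ y in 𝓝 m, Sm1 p y) : C2 (dB p) m := by
  rintro σ z h rfl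
  refine (cd_dbr (hp.self_of_nhds σ z h rfl)).continuousAt.congr ?_
  filter_upwards [ev_pull h hp] with t a using (pb2_dB a.1 a.2).symm

theorem SmF.congr (h : SmF f m) (e : g =ᶠ[𝓝 m] f) : SmF g m := by
  rintro σ z a rfl
  exact (h σ z a rfl).congr_of_eventuallyEq (a.self.continuousAt.eventually e)

theorem pbk_congr (h : HolAt σ z) (e : q =ᶠ[𝓝 (σ z)] p) : pbk q σ =ᶠ[𝓝 z] pbk p σ :=
  (h.self.continuousAt.eventually e).mono fun t a => congrArg (· * dM σ t) a

theorem Sm1.congr (h : Sm1 p m) (e : q =ᶠ[𝓝 m] p) : Sm1 q m := by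
  rintro σ z a rfl
  exact (h σ z a rfl).congr_of_eventuallyEq (pbk_congr a e)

theorem C2.congr (h : C2 δ m) (e : δ' =ᶠ[𝓝 m] δ) : C2 δ' m := by
  rintro σ z a rfl
  exact (h σ z a rfl).congr ((a.self.continuousAt.eventually e).mono fun t b =>
    congrArg (· * (dM σ t * conj (dM σ t))) b.symm)

theorem dF_congr (e : g =ᶠ[𝓝 m] f) : dF g m = dF f m := by
  obtain ⟨a1, a2, -⟩ := ch_facts m
  exact del_congr ((ev_pull a1 (a2.symm ▸ e)).mono fun _ a => a.2)

theorem dB_congr (e : q =ᶠ[𝓝 m] p) : dB q m = dB p m := by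
  obtain ⟨a1, a2, -⟩ := ch_facts m
  exact dbr_congr (pbk_congr a1 (a2.symm ▸ e))

theorem smF_const (c : ℂ) (m : M) : SmF (fun _ => c) m := fun _ _ _ _ => contDiffAt_const

theorem SmF.add (h : SmF f m) (h' : SmF g m) : SmF (fun y => f y + g y) m :=
  fun σ z a b => (h σ z a b).add (h' σ z a b)

theorem SmF.sub (h : SmF f m) (h' : SmF g m) : SmF (fun y => f y - g y) m :=
  fun σ z a b => (h σ z a b).sub (h' σ z a b)

theorem SmF.mul (h : SmF f m) (h' : SmF g m) : SmF (fun y => f y * g y) m :=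
  fun σ z a b => (h σ z a b).mul (h' σ z a b)

theorem smF_sum {ι : Type} (s : Finset ι) {F : ι → M → ℂ} (h : ∀ i ∈ s, SmF (F i) m) :
    SmF (fun y => ∑ i ∈ s, F i y) m :=
  fun σ z a b => ContDiffAt.sum fun i hi => h i hi σ z a b

theorem SmF.cont (h : SmF f m) : ContinuousAt f m := by
  obtain ⟨a1, a2, -⟩ := ch_facts m
  refine ((h _ _ a1 a2).continuousAt.comp ((chartAt ℂ m).continuousAt
    (mem_chart_source ℂ m))).congr ?_
  filter_upwards [(chartAt ℂ m).open_source.mem_nhds (mem_chart_source ℂ m)] with y hy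
  simp [(chartAt ℂ m).left_inv hy]

theorem pbk_mul (f p : M → ℂ) (σ : ℂ → M) :
    pbk (fun y => f y * p y) σ = fun t => (f ∘ σ) t * pbk p σ t := by
  funext t; simp only [pbk, Function.comp_apply, mul_assoc]

theorem pbk_add (p q : M → ℂ) (σ : ℂ → M) :
    pbk (fun y => p y + q y) σ = fun t => pbk p σ t + pbk q σ t := by
  funext t; simp only [pbk, add_mul]

theorem pbk_sub (p q : M → ℂ) (σ : ℂ → M) :
    pbk (fun y => p y - q y) σ = fun t => pbk p σ t - pbk q σ t := by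
  funext t; simp only [pbk, sub_mul]

theorem pbk_sum {ι : Type} (s : Finset ι) (P : ι → M → ℂ) (σ : ℂ → M) :
    pbk (fun y => ∑ i ∈ s, P i y) σ = fun t => ∑ i ∈ s, pbk (P i) σ t := by
  funext t; simp only [pbk, Finset.sum_mul]

theorem Sm1.mul (h : SmF f m) (h' : Sm1 p m) : Sm1 (fun y => f y * p y) m := fun σ z a b => by
  rw [pbk_mul]; exact (h σ z a b).mul (h' σ z a b)

theorem Sm1.add (h : Sm1 p m) (h' : Sm1 q m) : Sm1 (fun y => p y + q y) m := fun σ z a b => by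
  rw [pbk_add]; exact (h σ z a b).add (h' σ z a b)

theorem Sm1.sub (h : Sm1 p m) (h' : Sm1 q m) : Sm1 (fun y => p y - q y) m := fun σ z a b => by
  rw [pbk_sub]; exact (h σ z a b).sub (h' σ z a b)

theorem sm1_sum {ι : Type} (s : Finset ι) {P : ι → M → ℂ} (h : ∀ i ∈ s, Sm1 (P i) m) :
    Sm1 (fun y => ∑ i ∈ s, P i y) m := fun σ z a b => by
  rw [pbk_sum]; exact ContDiffAt.sum fun i hi => h i hi σ z a b

theorem sm1_zero (m : M) : Sm1 (fun _ => 0) m := fun σ z _ _ => by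
  have : pbk (fun _ : M => (0 : ℂ)) σ = fun _ => 0 := funext fun t => zero_mul _
  rw [this]; exact contDiffAt_const

theorem sm1_hol (h : HolForm p) (m : M) : Sm1 p m := fun σ z a _ => cd_an (h σ z a)

theorem pbk_ch (p : M → ℂ) (m : M) : pbk p (chartAt ℂ m).symm (chartAt ℂ m m) = p m := by
  obtain ⟨-, a2, a3⟩ := ch_facts m
  rw [pbk, a2, a3, mul_one]

theorem dF_const (c : ℂ) (m : M) : dF (fun _ => c) m = 0 := del_const _ _

theorem dF_add (h : SmF f m) (h' : SmF g m) : dF (fun y => f y + g y) m = dF f m + dF g m :=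
  (d_add (dif (h _ _ (ch_facts m).1 (ch_facts m).2.1))
    (dif (h' _ _ (ch_facts m).1 (ch_facts m).2.1))).1

theorem dF_sub (h : SmF f m) (h' : SmF g m) : dF (fun y => f y - g y) m = dF f m - dF g m :=
  (d_sub (dif (h _ _ (ch_facts m).1 (ch_facts m).2.1))
    (dif (h' _ _ (ch_facts m).1 (ch_facts m).2.1))).1

theorem dF_sum {ι : Type} (s : Finset ι) {F : ι → M → ℂ} (h : ∀ i ∈ s, SmF (F i) m) :
    dF (fun y => ∑ i ∈ s, F i y) m = ∑ i ∈ s, dF (F i) m :=
  (d_sum s (F := fun i => F i ∘ (chartAt ℂ m).symm) fun i hi =>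
    dif (h i hi _ _ (ch_facts m).1 (ch_facts m).2.1)).1

theorem dF_cmul (c : ℂ) (h : SmF f m) : dF (fun y => c * f y) m = c * dF f m := by
  have := (d_mul (differentiableAt_const c) (dif (h _ _ (ch_facts m).1 (ch_facts m).2.1))).1
  rw [del_const, zero_mul, zero_add] at this
  exact this

theorem dB_add (h : Sm1 p m) (h' : Sm1 q m) : dB (fun y => p y + q y) m = dB p m + dB q m := by
  unfold dB
  rw [pbk_add]
  exact (d_add (dif (h _ _ (ch_facts m).1 (ch_facts m).2.1))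
    (dif (h' _ _ (ch_facts m).1 (ch_facts m).2.1))).2

theorem dB_sub (h : Sm1 p m) (h' : Sm1 q m) : dB (fun y => p y - q y) m = dB p m - dB q m := by
  unfold dB
  rw [pbk_sub]
  exact (d_sub (dif (h _ _ (ch_facts m).1 (ch_facts m).2.1))
    (dif (h' _ _ (ch_facts m).1 (ch_facts m).2.1))).2

theorem dB_sum {ι : Type} (s : Finset ι) {P : ι → M → ℂ} (h : ∀ i ∈ s, Sm1 (P i) m) :
    dB (fun y => ∑ i ∈ s, P i y) m = ∑ i ∈ s, dB (P i) m := by
  unfold dB
  rw [pbk_sum]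
  exact (d_sum s fun i hi => dif (h i hi _ _ (ch_facts m).1 (ch_facts m).2.1)).2

/-- the Leibniz rule for a real function -/
theorem dB_mul {W : M → ℝ} (h : SmF (fun y => (W y : ℂ)) m) (h' : Sm1 p m) :
    dB (fun y => W y * p y) m = conj (dF (fun y => (W y : ℂ)) m) * p m + W m * dB p m := by
  obtain ⟨a1, a2, -⟩ := ch_facts m
  have h1 := dif (h _ _ a1 a2)
  have h2 : DifferentiableAt ℝ (fun t => W ((chartAt ℂ m).symm t)) (chartAt ℂ m m) := by
    simpa [Function.comp_def] using reCLM.differentiableAt.comp _ h1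
  unfold dB
  rw [pbk_mul (fun y => (W y : ℂ)), (d_mul h1 (dif (h' _ _ a1 a2))).2, pbk_ch]
  exact congrArg₂ (· + ·) (congrArg (· * p m) (dbr_real h2)) (by simp only [Function.comp, a2])

theorem dB_hol (h : HolForm p) (m : M) : dB p m = 0 :=
  (d_hol (h _ _ (ch_facts m).1).differentiableAt).2

theorem hol_of_dB (h : ∀ m, Sm1 p m) (h0 : ∀ m, dB p m = 0) : HolForm p := fun σ z a => by
  rw [Complex.analyticAt_iff_eventually_differentiableAt]
  filter_upwards [a.ev] with t b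
  refine hol_of_dbr (dif (h _ σ t b rfl)) ?_
  rw [← pb2_dB b (h _), pb2, h0, zero_mul]

theorem dB_dF_real {W : M → ℝ} (h : ∀ᶠ y in 𝓝 m, SmF (fun y => (W y : ℂ)) y) :
    (dB (dF fun y => (W y : ℂ)) m).im = 0 := by
  obtain ⟨a1, a2, -⟩ := ch_facts m
  have e : pbk (dF fun y => (W y : ℂ)) (chartAt ℂ m).symm =ᶠ[𝓝 (chartAt ℂ m m)]
      del ((fun y => (W y : ℂ)) ∘ (chartAt ℂ m).symm) := by
    filter_upwards [ev_pull a1 (a2.symm ▸ h)] with t a using pbk_dF a.1 a.2
  rw [dB, dbr_congr e]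
  exact lap_real (h.self_of_nhds _ _ a1 a2)

/-- a real function with `∂ W = 0` is locally constant -/
theorem const_of_dF {W : M → ℝ}
    (h : ∀ᶠ y in 𝓝 m, SmF (fun y => (W y : ℂ)) y ∧ dF (fun y => (W y : ℂ)) y = 0) :
    ∀ᶠ y in 𝓝 m, W y = W m := by
  obtain ⟨a1, a2, -⟩ := ch_facts m
  set e := chartAt ℂ m
  have h1 : ∀ᶠ t in 𝓝 (e m), HasFDerivAt ((fun y => (W y : ℂ)) ∘ e.symm) (0 : ℂ →L[ℝ] ℂ) t := by
    filter_upwards [ev_pull a1 (a2.symm ▸ h)] with t a
    have b1 := dif (a.2.1 _ _ a.1 rfl)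
    have b2 : DifferentiableAt ℝ (fun t => W (e.symm t)) t := by
      simpa [Function.comp_def] using reCLM.differentiableAt.comp _ b1
    have b3 := pbk_dF a.1 a.2.1
    rw [pbk, a.2.2, zero_mul] at b3
    have b4 := dbr_real b2
    convert b1.hasFDerivAt using 1
    refine ContinuousLinearMap.ext fun v => ?_
    rw [fderiv_eq, ← b3, show dbr ((fun y => (W y : ℂ)) ∘ e.symm) t = conj (del _ t) from b4,
      show del (fun t => (W (e.symm t) : ℂ)) t = 0 from b3.symm]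
    simp
  obtain ⟨r, hr, hb⟩ := Metric.eventually_nhds_iff_ball.1 h1
  have hm : m ∈ e.source := mem_chart_source ℂ m
  filter_upwards [(e.continuousAt hm).eventually (ball_mem_nhds _ hr), e.open_source.mem_nhds hm]
    with y b c
  have := isOpen_ball.is_const_of_fderiv_eq_zero (𝕜 := ℝ) (convex_ball _ _).isPreconnected
    (fun w hw => (hb w hw).differentiableAt.differentiableWithinAt)
    (fun w hw => (hb w hw).fderiv) b (mem_ball_self hr)
  simpa [e.left_inv c, e.left_inv hm] using this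

end Vale.Agent.P247B
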