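import Vale.Agent.P247B.Pu

/-!
# P247, block BETTI: integration on compact Riemann surfaces, Stokes
-/

set_option linter.all false

open scoped Topology Manifold ContDiff ComplexConjugate
open Set Filter Metric MeasureTheory Complex

noncomputable section

namespace Vale.Agent.P247B

open Vale.Agent.P247C Vale.Agent.P247C.RT Vale.Agent.P247C.RSp

theorem int_dbr_on {f : ℂ → ℂ} {Ω C : Set ℂ} (hΩ : IsOpen Ω) (hC : IsCompact C) (hCΩ : C ⊆ Ω)
    (hf : ∀ z ∈ Ω, ContDiffAt ℝ ∞ f z) (h0 : ∀ z ∈ Ω, z ∉ C → f z = 0) :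
    ∫ z in Ω, dbr f z = 0 := by
  classical
  set g : ℂ → ℂ := fun z => if z ∈ Ω then f z else 0 with hg
  have hg0 : ∀ z, z ∉ C → g z = 0 := fun z hz => by
    simp only [hg]
    split_ifs with h
    exacts [h0 z h hz, rfl]
  have hloc : ∀ z ∈ Ω, g =ᶠ[𝓝 z] f := fun z hz => by
    filter_upwards [hΩ.mem_nhds hz] with w hw
    exact if_pos hw
  have hz0 : ∀ z, z ∉ C → g =ᶠ[𝓝 z] fun _ => 0 := fun z hz => by
    filter_upwards [hC.isClosed.isOpen_compl.mem_nhds hz] with w hw
    exact hg0 w hw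
  have hsm : ContDiff ℝ ∞ g := contDiff_iff_contDiffAt.2 fun z => by
    by_cases hz : z ∈ Ω
    · exact (hf z hz).congr_of_eventuallyEq (hloc z hz)
    · exact contDiffAt_const.congr_of_eventuallyEq (hz0 z fun h => hz (hCΩ h))
  rw [setIntegral_congr_fun hΩ.measurableSet fun z hz => (dbr_congr (hloc z hz)).symm,
    setIntegral_eq_integral_of_forall_compl_eq_zero fun z hz => by
      rw [dbr_congr (hz0 z fun h => hz (hCΩ h)), dbr_const]]
  exact int_dbr hsm (HasCompactSupport.intro hC hg0)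

variable {M : Type} [TopologicalSpace M] [ChartedSpace ℂ M] [IsManifold 𝓘(ℂ) 1 M]
  {σ : ℂ → M} {V C : Set ℂ} {δ δ' p : M → ℂ} {m : M}

/-- change of variables -/
theorem cv (hV : IsOpen V) (hσ : ∀ z ∈ V, HolAt σ z) (hi : InjOn σ V)
    {e : OpenPartialHomeomorph M ℂ} (he : e ∈ atlas ℂ M)
    (h0 : ∀ y, δ y ≠ 0 → y ∈ σ '' V ∧ y ∈ e.source) :
    ∫ z in e.target, pb2 δ e.symm z = ∫ z in V, pb2 δ σ z := by
  set s := V ∩ σ ⁻¹' e.source with hs
  have hso : IsOpen s := ContinuousOn.isOpen_inter_preimage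
    (fun z hz => (hσ z hz).self.continuousAt.continuousWithinAt) hV e.open_source
  have han : ∀ z ∈ s, AnalyticAt ℂ (e ∘ σ) z := fun z hz =>
    an_of_hol (hσ z hz.1) (hol_chart he hz.2)
  have e1 : ∫ z in e.target, pb2 δ e.symm z = ∫ z in (e ∘ σ) '' s, pb2 δ e.symm z := by
    refine setIntegral_eq_of_subset_of_forall_sdiff_eq_zero e.open_target.measurableSet ?_
      fun z hz => ?_
    · rintro _ ⟨z, hz, rfl⟩
      exact e.map_source hz.2
    · refine mul_eq_zero_of_left ?_ _
      by_contra h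
      obtain ⟨⟨t, ht, h1⟩, h2⟩ := h0 _ h
      exact hz.2 ⟨t, ⟨ht, show σ t ∈ _ from h1 ▸ h2⟩, by
        rw [Function.comp_apply, h1, e.right_inv hz.1]⟩
  have e2 : ∫ z in V, pb2 δ σ z = ∫ z in s, pb2 δ σ z := by
    refine setIntegral_eq_of_subset_of_forall_sdiff_eq_zero hV.measurableSet inter_subset_left
      fun z hz => mul_eq_zero_of_left ?_ _
    by_contra h
    exact hz.2 ⟨hz.1, (h0 _ h).2⟩
  rw [e1, e2, integral_image_eq_integral_abs_det_fderiv_smul volume hso.measurableSet
    (fun z hz => (hasF_mulC (han z hz).differentiableAt.hasDerivAt).hasFDerivWithinAt)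
    (e.injOn.comp (hi.mono inter_subset_left) fun z hz => hz.2)]
  refine setIntegral_congr_fun hso.measurableSet fun z hz => ?_
  have h1 : σ =ᶠ[𝓝 z] e.symm ∘ (e ∘ σ) := by
    filter_upwards [hso.mem_nhds hz] with t ht using (e.left_inv ht.2).symm
  have h2 := dM_comp (hol_symm he (e.map_source hz.2)).self (han z hz).differentiableAt
  simp only [pb2]
  rw [dM_congr h1, h2, det_mulC, abs_of_nonneg (normSq_nonneg _), real_smul, ← mul_conj, map_mul]
  simp only [Function.comp_apply, e.left_inv hz.2]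
  ring

theorem integ (hV : IsOpen V) (hσ : ∀ z ∈ V, HolAt σ z) (hC : IsCompact C) (hCV : C ⊆ V)
    (hδ : ∀ m, C2 δ m) (h0 : ∀ z ∈ V, z ∉ C → δ (σ z) = 0) : IntegrableOn (pb2 δ σ) V :=
  (ContinuousOn.integrableOn_compact hC fun z hz =>
    (hδ _ σ z (hσ z (hCV hz)) rfl).continuousWithinAt).of_forall_sdiff_eq_zero hV.measurableSet
      fun z hz => mul_eq_zero_of_left (h0 z hz.1 hz.2) _

theorem pb2_mul (f δ : M → ℂ) (σ : ℂ → M) :
    pb2 (fun y => f y * δ y) σ = fun t => f (σ t) * pb2 δ σ t := by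
  funext t; simp only [pb2, mul_assoc]

theorem pb2_add (δ δ' : M → ℂ) (σ : ℂ → M) :
    pb2 (fun y => δ y + δ' y) σ = fun t => pb2 δ σ t + pb2 δ' σ t := by
  funext t; simp only [pb2, add_mul]

theorem pb2_conj (δ : M → ℂ) (σ : ℂ → M) :
    pb2 (fun y => conj (δ y)) σ = fun t => conj (pb2 δ σ t) := by
  funext t; simp only [pb2, map_mul, conj_conj]; ring

theorem pb2_pair (p q : M → ℂ) (σ : ℂ → M) :
    pb2 (fun y => p y * conj (q y)) σ = fun t => pbk p σ t * conj (pbk q σ t) := by
  funext t; simp only [pb2, pbk, map_mul]; ring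

theorem C2.mul {f : M → ℂ} (hf : ContinuousAt f m) (h : C2 δ m) : C2 (fun y => f y * δ y) m := by
  rintro σ z a rfl
  rw [pb2_mul]
  exact (hf.comp a.self.continuousAt).mul (h σ z a rfl)

theorem C2.add (h : C2 δ m) (h' : C2 δ' m) : C2 (fun y => δ y + δ' y) m := fun σ z a b => by
  rw [pb2_add]; exact (h σ z a b).add (h' σ z a b)

theorem C2.conj (h : C2 δ m) : C2 (fun y => conj (δ y)) m := fun σ z a b => by
  rw [pb2_conj]; exact continuous_conj.continuousAt.comp (h σ z a b)

theorem c2_zero (m : M) : C2 (fun _ => 0) m := fun σ z _ _ => by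
  have : pb2 (fun _ : M => (0 : ℂ)) σ = fun _ => 0 := funext fun t => zero_mul _
  rw [this]; exact continuousAt_const

theorem c2_sum {ι : Type} (s : Finset ι) {D : ι → M → ℂ} (h : ∀ i ∈ s, C2 (D i) m) :
    C2 (fun y => ∑ i ∈ s, D i y) m := by
  classical
  induction s using Finset.induction_on with
  | empty => simpa using c2_zero m
  | insert a s ha ih =>
    simp only [Finset.sum_insert ha]
    exact (h a (Finset.mem_insert_self _ _)).add (ih fun i hi => h i (Finset.mem_insert_of_mem hi))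

theorem c2_pair {q : M → ℂ} (h : Sm1 p m) (h' : Sm1 q m) : C2 (fun y => p y * conj (q y)) m :=
  fun σ z a b => by
    rw [pb2_pair]
    exact (h σ z a b).continuousAt.mul (cd_conj (h' σ z a b)).continuousAt

variable [T2Space M] [CompactSpace M]

variable (M) in
/-- a chosen partition of unity -/
def pu : PU M := Classical.choice exists_pu1

/-- the integral of a density -/
def IM (δ : M → ℂ) : ℂ := ∑ i, ∫ z in ((pu M).e i).target,
  pb2 (fun y => ((pu M).ρ i y : ℂ) * δ y) ((pu M).e i).symm z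

theorem PU.c2 (P : PU M) (i : Fin P.N) (hδ : ∀ m, C2 δ m) (m : M) :
    C2 (fun y => (P.ρ i y : ℂ) * δ y) m :=
  (hδ m).mul (continuous_ofReal.comp (P.cont i)).continuousAt

theorem PU.cpt (P : PU M) (i : Fin P.N) : IsCompact (P.e i '' tsupport (P.ρ i)) ∧
    P.e i '' tsupport (P.ρ i) ⊆ (P.e i).target ∧
    (P.e i).symm '' (P.e i '' tsupport (P.ρ i)) = tsupport (P.ρ i) :=
  ⟨(isClosed_tsupport _).isCompact.image_of_continuousOn ((P.e i).continuousOn.mono (P.supp i)),
    by rintro _ ⟨x, hx, rfl⟩; exact (P.e i).map_source (P.supp i hx),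
    (P.e i).symm_image_image_of_subset_source (P.supp i)⟩

theorem PU.integ (P : PU M) (i : Fin P.N) (hδ : ∀ m, C2 δ m) :
    IntegrableOn (pb2 (fun y => (P.ρ i y : ℂ) * δ y) (P.e i).symm) (P.e i).target := by
  refine P247B.integ (P.e i).open_target (fun z hz => hol_symm (P.mem i) hz) (P.cpt i).1
    (P.cpt i).2.1 (P.c2 i hδ) fun z hz h => ?_
  rw [image_eq_zero_of_notMem_tsupport fun h' => h ⟨_, h', (P.e i).right_inv hz⟩, ofReal_zero,
    zero_mul]

theorem IM_add (h : ∀ m, C2 δ m) (h' : ∀ m, C2 δ' m) :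
    IM (fun y => δ y + δ' y) = IM δ + IM δ' := by
  unfold IM
  rw [← Finset.sum_add_distrib]
  refine Finset.sum_congr rfl fun i _ => ?_
  rw [← integral_add ((pu M).integ i h) ((pu M).integ i h')]
  simp only [mul_add, pb2_add]

theorem IM_cmul (c : ℂ) (δ : M → ℂ) : IM (fun y => c * δ y) = c * IM δ := by
  unfold IM
  rw [Finset.mul_sum]
  refine Finset.sum_congr rfl fun i _ => ?_
  rw [← integral_const_mul]
  congr 1; funext z; simp only [pb2]; ring

theorem IM_zero : IM (fun _ : M => 0) = 0 := by simpa using IM_cmul 0 (fun _ : M => 0)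

theorem IM_conj (δ : M → ℂ) : IM (fun y => conj (δ y)) = conj (IM δ) := by
  unfold IM
  rw [map_sum]
  refine Finset.sum_congr rfl fun i _ => ?_
  rw [← integral_conj]
  congr 1; funext z; simp only [pb2, map_mul, conj_conj, conj_ofReal]; ring

theorem IM_sum {ι : Type} (s : Finset ι) {D : ι → M → ℂ} (h : ∀ i ∈ s, ∀ m, C2 (D i) m) :
    IM (fun y => ∑ i ∈ s, D i y) = ∑ i ∈ s, IM (D i) := by
  classical
  induction s using Finset.induction_on with
  | empty => simpa using IM_zero
  | insert a s ha ih =>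
    simp only [Finset.sum_insert ha]
    rw [IM_add (h a (Finset.mem_insert_self _ _)) fun m => c2_sum s fun i hi =>
      h i (Finset.mem_insert_of_mem hi) m, ih fun i hi => h i (Finset.mem_insert_of_mem hi)]

/-- densities with support in a plot -/
theorem IM_plot (hV : IsOpen V) (hσ : ∀ z ∈ V, HolAt σ z) (hi : InjOn σ V) (hC : IsCompact C)
    (hCV : C ⊆ V) (hδ : ∀ m, C2 δ m) (h0 : ∀ y, y ∉ σ '' C → δ y = 0) :
    IM δ = ∫ z in V, pb2 δ σ z := by
  have h1 : ∀ z ∈ V, z ∉ C → δ (σ z) = 0 := fun z hz h => h0 _ fun ⟨t, ht, e⟩ =>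
    h (hi (hCV ht) hz e ▸ ht)
  unfold IM
  rw [Finset.sum_congr rfl fun i _ => cv hV hσ hi ((pu M).mem i) fun y hy => ⟨image_mono hCV
    (by_contra fun h => hy (by rw [h0 y h, mul_zero])), (pu M).supp i (subset_tsupport _
      fun h => hy (by rw [h, ofReal_zero, zero_mul]))⟩,
    ← integral_finsetSum _ fun i _ => integ hV hσ hC hCV ((pu M).c2 i hδ) fun z hz h => by
      rw [h1 z hz h, mul_zero]]
  congr 1; funext z
  simp only [pb2_mul]
  rw [← Finset.sum_mul, ← ofReal_sum, (pu M).sum, ofReal_one, one_mul]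

/-- Stokes -/
theorem IM_dB (hp : ∀ m, Sm1 p m) : IM (dB p) = 0 := by
  set P := pu M
  have h1 : ∀ i m, Sm1 (fun y => (P.ρ i y : ℂ) * p y) m := fun i m => (hp m).mul (P.smooth i m)
  have h2 : dB p = fun m => ∑ i, dB (fun y => (P.ρ i y : ℂ) * p y) m := by
    funext m
    rw [← dB_sum _ fun i _ => h1 i m]
    congr 1; funext y
    rw [← Finset.sum_mul, ← ofReal_sum, P.sum, ofReal_one, one_mul]
  rw [h2, IM_sum _ fun i _ m => c2_dB (Eventually.of_forall (h1 i))]
  refine Finset.sum_eq_zero fun i _ => ?_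
  obtain ⟨a1, a2, a3⟩ := P.cpt i
  have hh := fun z hz => hol_symm (P.mem i) (z := z) hz
  rw [IM_plot (P.e i).open_target hh (P.e i).symm.injOn a1 a2
    (fun m => c2_dB (Eventually.of_forall (h1 i))) fun y hy => ?_,
    setIntegral_congr_fun (P.e i).open_target.measurableSet fun z hz => pb2_dB (hh z hz) (h1 i _)]
  · refine int_dbr_on (P.e i).open_target a1 a2 (fun z hz => h1 i _ _ z (hh z hz) rfl)
      fun z hz h => ?_
    rw [pbk, image_eq_zero_of_notMem_tsupport fun h' => h ⟨_, h', (P.e i).right_inv hz⟩,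
      ofReal_zero, zero_mul, zero_mul]
  · rw [a3] at hy
    have h3 : (fun y => (P.ρ i y : ℂ) * p y) =ᶠ[𝓝 y] fun _ => 0 := by
      filter_upwards [notMem_tsupport_iff_eventuallyEq.1 hy] with t ht
      rw [ht, Pi.zero_apply, ofReal_zero, zero_mul]
    rw [dB_congr h3]
    exact dB_hol (fun σ z _ => analyticAt_const.congr (f := fun _ => 0)
      (Eventually.of_forall fun t => (zero_mul _).symm)) y

theorem IM_pos (hp : ∀ m, Sm1 p m) (h : IM (fun y => p y * conj (p y)) = 0) (m : M) : p m = 0 := by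
  set P := pu M
  have hc : ∀ m, C2 (fun y => p y * conj (p y)) m := fun m => c2_pair (hp m) (hp m)
  set F : Fin P.N → ℂ → ℝ := fun i z => P.ρ i ((P.e i).symm z) * normSq (pbk p (P.e i).symm z)
    with hF
  have h1 : ∀ i, pb2 (fun y => (P.ρ i y : ℂ) * (p y * conj (p y))) (P.e i).symm =
      fun z => (F i z : ℂ) := fun i => by
    rw [pb2_mul, pb2_pair]
    funext z; simp only [hF, mul_conj, ofReal_mul]
  have h2 : ∀ i z, 0 ≤ F i z := fun i z => mul_nonneg (P.nonneg _ _) (normSq_nonneg _)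
  have h3 : ∑ i, ∫ z in (P.e i).target, F i z = 0 := by
    have h' : ∑ i, ∫ z in (P.e i).target, (F i z : ℂ) = 0 :=
      (Finset.sum_congr rfl fun i _ => by rw [h1]).symm.trans h
    simp only [integral_complex_ofReal] at h'
    exact_mod_cast h'
  obtain ⟨i, hi⟩ : ∃ i, P.ρ i m ≠ 0 := by
    by_contra hn
    push Not at hn
    simpa [hn] using P.sum m
  have hm : m ∈ (P.e i).source := P.supp i (subset_tsupport _ hi)
  have h4 := (Finset.sum_eq_zero_iff_of_nonneg fun i _ => integral_nonneg (h2 i)).1 h3 i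
    (Finset.mem_univ i)
  have h5 : IntegrableOn (F i) (P.e i).target := by
    have := (P.integ i hc).re
    simp only [h1, RCLike.re_to_complex, ofReal_re] at this
    exact this
  have h6 : ContinuousOn (F i) (P.e i).target := fun z hz => by
    have := continuous_re.continuousAt.comp (P.c2 i hc _ _ z (hol_symm (P.mem i) hz) rfl)
    rw [h1] at this
    exact ContinuousAt.continuousWithinAt (by simpa [Function.comp_def] using this)
  have h7 := Measure.eqOn_open_of_ae_eq ((integral_eq_zero_iff_of_nonneg (h2 i) h5).1 h4)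
    (P.e i).open_target h6 continuousOn_const ((P.e i).map_source hm)
  simp only [hF, (P.e i).left_inv hm, Pi.zero_apply, mul_eq_zero, hi, false_or, normSq_eq_zero,
    pbk, dM_symm_ne (P.mem i) ((P.e i).map_source hm), or_false] at h7
  exact h7

/-- exact forms pair to zero with closed forms -/
theorem IM_exact {W : M → ℝ} (hW : ∀ m, SmF (fun y => (W y : ℂ)) m) (hp : ∀ m, Sm1 p m)
    (h0 : ∀ m, (dB p m).im = 0) :
    (IM fun y => p y * conj (dF (fun y => (W y : ℂ)) y)).im = 0 := by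
  have h1 := IM_dB fun m => (hp m).mul (hW m)
  have c1 : ∀ m, C2 (fun y => p y * conj (dF (fun y => (W y : ℂ)) y)) m := fun m =>
    c2_pair (hp m) (sm1_dF (Eventually.of_forall hW))
  have c2 : ∀ m, C2 (fun y => (W y : ℂ) * dB p y) m := fun m =>
    (c2_dB (Eventually.of_forall hp)).mul (hW m).cont
  have h2 : dB (fun y => (W y : ℂ) * p y) =
      fun y => p y * conj (dF (fun y => (W y : ℂ)) y) + (W y : ℂ) * dB p y := by
    funext y; rw [dB_mul (hW y) (hp y), mul_comm]
  have h3 : (IM fun y => (W y : ℂ) * dB p y).im = 0 := by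
    rw [← conj_eq_iff_im, ← IM_conj]
    congr 1; funext y
    rw [map_mul, conj_ofReal, conj_eq_iff_im.2 (h0 y)]
  rw [h2, IM_add c1 c2] at h1
  have := congrArg im h1
  rwa [add_im, h3, add_zero] at this

end Vale.Agent.P247B
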