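import Vale.Agent.P247B.Rsh
import Vale.Agent.P247A.Spec2
import Vale.Agent.P247C.Vf

/-!
# P247, block BETTI: pull-backs of closed one-forms to the normalisation, jumps at the branches
-/

set_option linter.all false

open scoped Topology Manifold ContDiff ComplexConjugate
open Set Filter Metric MeasureTheory Complex

noncomputable section

namespace Vale.Agent.P247B.Jmp

open Vale.Agent.P247X Vale.Agent.P247A Vale.Agent.P247C Vale.Agent.P247C.RT Vale.Agent.P247C.VF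
open Vale.Agent.P247.SCY

variable {X : Type} [TopologicalSpace X] [ChartedSpace HS.E4 X]

/-- `p` is a potential of `a` on `U` -/
def PotOn (a : ∀ x : X, TangentSpace (𝓡 4) x → ℝ) (p : X → ℝ) (U : Set X) : Prop :=
  IsOpen U ∧ ContMDiffOn (𝓡 4) 𝓘(ℝ, ℝ) ∞ p U ∧ ∀ y ∈ U, ∀ v, dfr p y v = a y v

/-- `a` has local potentials -/
def LocP (a : ∀ x : X, TangentSpace (𝓡 4) x → ℝ) : Prop := ∀ x, ∃ U p, x ∈ U ∧ PotOn a p U

theorem PotOn.at {a : ∀ x : X, TangentSpace (𝓡 4) x → ℝ} {p : X → ℝ} {U : Set X}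
    (h : PotOn a p U) {y : X} (hy : y ∈ U) : ContMDiffAt (𝓡 4) 𝓘(ℝ, ℝ) ∞ p y :=
  h.2.1.contMDiffAt (h.1.mem_nhds hy)

theorem locP_ang {g : X → ℂ} (hg : Circ g) : LocP (ang g) := by
  intro x
  have h0 : ∀ y, g y ≠ 0 := fun y h => by simpa [h] using hg.2 y
  set φ : ℂ → ℝ := fun t => (log (t / g x)).im / (2 * Real.pi) with hφ
  have h1 : ∀ t : ℂ, t / g x ∈ slitPlane → ContDiffAt ℝ ∞ φ t := fun t ht =>
    (imCLM.contDiff.contDiffAt.comp t (((contDiffAt_log ht).restrict_scalars ℝ).comp t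
      (contDiffAt_id.div_const _))).div_const _
  refine ⟨{y | g y / g x ∈ slitPlane}, φ ∘ g, by simp [h0 x],
    isOpen_slitPlane.preimage (hg.1.continuous.div_const _),
    fun y hy => ((h1 _ hy).contMDiffAt.comp y (hg.1 y)).contMDiffWithinAt, fun y hy v => ?_⟩
  have h2 : HasDerivAt (fun t => log (t / g x)) (conj (g y)) (g y) := by
    have h3 : g y * conj (g y) = 1 := by rw [mul_conj, normSq_eq_norm_sq, hg.2 y]; simp
    have h4 : conj (g y) = (g y / g x)⁻¹ * (1 / g x) := by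
      have := h0 x
      have := h0 y
      field_simp
      linear_combination h3
    rw [h4]
    exact (hasDerivAt_log hy).comp (g y) ((hasDerivAt_id (g y)).div_const (g x))
  have h3 := ((imCLM.hasFDerivAt.comp _ (hasF_mulC h2)).mul_const (2 * Real.pi)⁻¹).hasMFDerivAt.comp
    y ((hg.1 y).mdifferentiableAt (by simp)).hasMFDerivAt
  have e : φ = fun t => (imCLM ∘ fun t => log (t / g x)) t * (2 * Real.pi)⁻¹ := rfl
  rw [dfr, e, h3.mfderiv, ang, div_eq_inv_mul, mul_comm (conj (g y))]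
  rfl

theorem LocP.sum {ι : Type} (s : Finset ι) {a : ι → ∀ x : X, TangentSpace (𝓡 4) x → ℝ}
    (h : ∀ i, LocP (a i)) (c : ι → ℝ) : LocP fun x v => ∑ i ∈ s, c i * a i x v := by
  classical
  intro x
  induction s using Finset.induction_on with
  | empty => exact ⟨univ, fun _ => 0, mem_univ _, isOpen_univ, contMDiffOn_const, fun y _ v => by
      rw [dfr, mfderiv_const]; rfl⟩
  | insert i s hi ih =>
    obtain ⟨U, p, h1, h2⟩ := ih
    obtain ⟨U', p', h3, h4⟩ := h i x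
    refine ⟨U' ∩ U, fun y => c i * p' y + p y, ⟨h3, h1⟩, h4.1.inter h2.1,
      (contMDiffOn_const.mul (h4.2.1.mono inter_subset_left)).add
        (h2.2.1.mono inter_subset_right), fun y hy v => ?_⟩
    have h5 := ((((h4.at hy.1).mdifferentiableAt (by simp)).hasMFDerivAt.const_smul (c i)).add
      ((h2.at hy.2).mdifferentiableAt (by simp)).hasMFDerivAt).mfderiv
    refine (DFunLike.congr_fun h5 v).trans ?_
    show c i * dfr p' y v + dfr p y v = ∑ j ∈ insert i s, c j * a j y v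
    rw [Finset.sum_insert hi, h2.2.2 y hy.2, h4.2.2 y hy.1]

variable {J : EndF X} {K : Set X} (ν : Nrm J K)

/-- the `(1,0)`-part of the pull-back of a real one-form -/
def pA (a : ∀ x : X, TangentSpace (𝓡 4) x → ℝ) (m : ν.M) : ℂ :=
  ((a (ν.n m) (vec ν m 1) : ℝ) - I * (a (ν.n m) (vec ν m I) : ℝ)) / 2

theorem pA_sum {ι : Type} (s : Finset ι) (a : ι → ∀ x : X, TangentSpace (𝓡 4) x → ℝ) (c : ι → ℝ)
    (m : ν.M) : pA ν (fun x v => ∑ i ∈ s, c i * a i x v) m = ∑ i ∈ s, c i * pA ν (a i) m := by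
  simp only [pA, ofReal_sum, ofReal_mul, Finset.mul_sum, ← Finset.sum_sub_distrib,
    Finset.sum_div]
  exact Finset.sum_congr rfl fun i _ => by ring

/-- every point of the curve has branches -/
def Loc (J : EndF X) (K : Set X) : Prop :=
  ∀ x ∈ K, ∃ (N : ℕ) (u : Fin N → ℂ → X) (U : Set X), BrsX J K x N u U

variable {ν} {σ : ℂ → ν.M} {z : ℂ} {m : ν.M} {a : ∀ x : X, TangentSpace (𝓡 4) x → ℝ}
  {p : X → ℝ} {U : Set X}

theorem cmd_n (hl : Loc J K) (h : HolAt σ z) : ContMDiffAt 𝓘(ℝ, ℂ) (𝓡 4) ∞ (ν.n ∘ σ) z := by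
  obtain ⟨N, u, U, hb⟩ := hl _ (mem_K ν (σ z))
  obtain ⟨l, ζ, a1, a2, -, a4⟩ := plot_br ν hb h rfl
  exact ContMDiffAt.congr_of_eventuallyEq ((hb.cmd l (by rw [a2]; exact mem_ball_self two_pos)).comp
    z (cd_an a1).contMDiffAt) a4

theorem smF_pull (hl : Loc J K) (hp : ContMDiffAt (𝓡 4) 𝓘(ℝ, ℝ) ∞ p (ν.n m)) :
    SmF (fun y => (p (ν.n y) : ℂ)) m := by
  rintro σ z h rfl
  exact ofRealCLM.contDiff.contDiffAt.comp z (ContMDiffAt.comp z hp (cmd_n hl h)).contDiffAt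

theorem del_pull (hl : Loc J K) (h : HolAt σ z)
    (hp : ContMDiffAt (𝓡 4) 𝓘(ℝ, ℝ) ∞ p (ν.n (σ z))) :
    del ((fun y => (p (ν.n y) : ℂ)) ∘ σ) z =
      ((dfr p _ (dm (ν.n ∘ σ) z 1) : ℝ) - I * (dfr p _ (dm (ν.n ∘ σ) z I) : ℝ)) / 2 := by
  have h1 := (HasMFDerivAt.comp z (hp.mdifferentiableAt (by simp)).hasMFDerivAt
    ((cmd_n hl h).mdifferentiableAt (by simp)).hasMFDerivAt).hasFDerivAt
  have h2 := (ofRealCLM.hasFDerivAt.comp z h1).fderiv
  exact congrArg (fun L : ℂ →L[ℝ] ℂ => (L 1 - I * L I) / 2) h2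

theorem pA_eq (hl : Loc J K) (h : PotOn a p U) (hm : ν.n m ∈ U) :
    pA ν a m = dF (fun y => (p (ν.n y) : ℂ)) m := by
  obtain ⟨a1, a2, -⟩ := ch_facts m
  have e : ∀ (y : X) (v : HS.E4), y = ν.n m → a (ν.n m) v = dfr p y v := by
    rintro _ _ rfl; exact (h.2.2 _ hm _).symm
  rw [dF, del_pull hl a1 (by rw [a2]; exact h.at hm)]
  exact congrArg₂ (fun s t : ℝ => ((s : ℂ) - I * t) / 2) (e _ _ (congrArg ν.n a2))
    (e _ _ (congrArg ν.n a2))

theorem pA_ev (hl : Loc J K) (h : PotOn a p U) (hm : ν.n m ∈ U) :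
    (∀ᶠ y in 𝓝 m, SmF (fun y => (p (ν.n y) : ℂ)) y) ∧
      pA ν a =ᶠ[𝓝 m] dF fun y => (p (ν.n y) : ℂ) := by
  have h1 : ∀ᶠ y in 𝓝 m, ν.n y ∈ U := ν.cont.continuousAt.eventually (h.1.mem_nhds hm)
  exact ⟨h1.mono fun y hy => smF_pull hl (h.at hy), h1.mono fun y hy => pA_eq hl h hy⟩

theorem sm1_pA (hl : Loc J K) (ha : LocP a) (m : ν.M) : Sm1 (pA ν a) m := by
  obtain ⟨U, p, h1, h2⟩ := ha (ν.n m)
  exact (sm1_dF (pA_ev hl h2 h1).1).congr (pA_ev hl h2 h1).2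

theorem dB_pA (hl : Loc J K) (ha : LocP a) (m : ν.M) : (dB (pA ν a) m).im = 0 := by
  obtain ⟨U, p, h1, h2⟩ := ha (ν.n m)
  rw [dB_congr (pA_ev hl h2 h1).2]
  exact dB_dF_real (pA_ev hl h2 h1).1

theorem pbk_pA (hl : Loc J K) (ha : LocP a) (h : HolAt σ z) : pbk (pA ν a) σ z =
    ((a _ (dm (ν.n ∘ σ) z 1) : ℝ) - I * (a _ (dm (ν.n ∘ σ) z I) : ℝ)) / 2 := by
  obtain ⟨U, p, h1, h2⟩ := ha (ν.n (σ z))
  rw [(pbk_congr h (pA_ev hl h2 h1).2).self_of_nhds, pbk_dF h (smF_pull hl (h2.at h1)),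
    del_pull hl h (h2.at h1)]
  exact congrArg₂ (fun s t : ℝ => ((s : ℂ) - I * t) / 2) (h2.2.2 _ h1 _) (h2.2.2 _ h1 _)

variable [T2Space X]

/-- a primitive on the normalisation without jumps descends to the curve -/
theorem descend (hl : Loc J K) (ha : LocP a) {W : ν.M → ℝ}
    (hW : ∀ m, SmF (fun y => (W y : ℂ)) m) (hd : ∀ m, pA ν a m = dF (fun y => (W y : ℂ)) m)
    (hj : ∀ m m', ν.n m = ν.n m' → W m = W m') : ∃ f : X → ℝ, ∀ x ∈ K,
      ∃ (U : Set X) (p : X → ℝ), IsOpen U ∧ x ∈ U ∧ ContMDiffOn (𝓡 4) 𝓘(ℝ, ℝ) ∞ p U ∧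
        (∀ y ∈ U, ∀ v, dfr p y v = a y v) ∧ ∀ y ∈ U ∩ K, f y = p y := by
  obtain ⟨f, hf⟩ : ∃ f : X → ℝ, ∀ m, f (ν.n m) = W m :=
    ⟨Function.extend ν.n W 0, fun m => Function.FactorsThrough.extend_apply hj 0 m⟩
  refine ⟨f, fun x _ => ?_⟩
  obtain ⟨U, p, h1, h2⟩ := ha x
  set O : Set ν.M := {y | ∀ᶠ t in 𝓝 y, W t - p (ν.n t) = f x - p x} with hO
  have hC : IsClosed (ν.n '' Oᶜ) :=
    (isOpen_setOf_eventually_nhds.isClosed_compl.isCompact.image ν.cont).isClosed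
  have hx : x ∉ ν.n '' Oᶜ := by
    rintro ⟨m, hm, rfl⟩
    refine hm ?_
    obtain ⟨b1, b2⟩ := pA_ev (m := m) hl h2 h1
    have e : (fun y => ((W y - p (ν.n y) : ℝ) : ℂ)) = fun y => (W y : ℂ) - (p (ν.n y) : ℂ) :=
      funext fun y => ofReal_sub _ _
    show ∀ᶠ t in 𝓝 m, W t - p (ν.n t) = f (ν.n m) - p (ν.n m)
    rw [hf]
    refine const_of_dF (W := fun y => W y - p (ν.n y)) ?_
    filter_upwards [b1, b2] with y c1 c2
    rw [e]
    exact ⟨(hW y).sub c1, by rw [dF_sub (hW y) c1, ← hd, c2, sub_self]⟩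
  refine ⟨U ∩ (ν.n '' Oᶜ)ᶜ, fun y => p y + (f x - p x), h2.1.inter hC.isOpen_compl, ⟨h1, hx⟩,
    (h2.2.1.mono inter_subset_left).add contMDiffOn_const, fun y hy v => ?_, fun y hy => ?_⟩
  · have h5 := (((h2.at hy.1).mdifferentiableAt (by simp)).hasMFDerivAt.add
      (hasMFDerivAt_const (f x - p x) y)).mfderiv
    rw [← h2.2.2 y hy.1]
    exact (DFunLike.congr_fun h5 v).trans (add_zero _)
  · obtain ⟨m, rfl⟩ : y ∈ range ν.n := ν.rng.symm ▸ hy.2
    have h3 : m ∈ O := by_contra fun h => hy.1.2 ⟨m, h, rfl⟩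
    rw [hf, ← (show ∀ᶠ t in 𝓝 m, W t - p (ν.n t) = f x - p x from h3).self_of_nhds]
    ring

/-- the finitely many jump conditions -/
theorem fibres (P : Finset X) (n : X → ℕ)
    (hP : ∀ x ∈ P, ∃ (u : Fin (n x + 1) → ℂ → X) (U : Set X), BrsX J K x (n x + 1) u U)
    (hR : ∀ x ∈ K, x ∉ P → RegPt J K x) : ∃ s t : (Σ x : P, Fin (n x)) → ν.M,
      ∀ W : ν.M → ℝ, (∀ i, W (s i) = W (t i)) → ∀ m m', ν.n m = ν.n m' → W m = W m' := by
  choose u U hb using hP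
  choose σ h1 h2 h3 using fun x : P => lift' ν (hb x x.2)
  refine ⟨fun i => σ i.1 i.2.succ 0, fun i => σ i.1 0 0, fun W hW m m' e => ?_⟩
  by_cases hx : ν.n m' ∈ P
  · have key : ∀ y, ν.n y = ν.n m' → W y = W (σ ⟨_, hx⟩ 0 0) := fun y hy => by
      obtain ⟨l, rfl⟩ := (h2 ⟨_, hx⟩ y).1 hy
      induction l using Fin.cases with
      | zero => rfl
      | succ l => exact hW ⟨⟨_, hx⟩, l⟩
    rw [key m e, key m' rfl]
  · rw [fib_one ν (hR _ (mem_K ν m') hx) e rfl]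

/-- the first Betti number, the holomorphic forms and the branches -/
theorem count (hL : LEF_statement) {X : Type} [Cl4 X] {μ : HS.Form X 4} (hμ : HS.Volume μ)
    {w : Tri X} (hw : HS.Hypersymplectic μ w) {b : ℕ} (B : H1B X b) (K : Irr (Jw w))
    {α : HS.Form X 2} (hα : IsCls μ K.T α) (hp : 0 < K.T α) (ν : Nrm (Jw w) K.K) (P : Finset X)
    (n : X → ℕ) (hP : ∀ x ∈ P, ∃ (u : Fin (n x + 1) → ℂ → X) (U : Set X),
      BrsX (Jw w) K.K x (n x + 1) u U) (hR : ∀ x ∈ K.K, x ∉ P → RegPt (Jw w) K.K x)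
    {W : Fin b → ν.M → ℝ} (hW : ∀ i m, SmF (fun y => (W i y : ℂ)) m) {θ : Fin b → ν.M → ℂ}
    (hθ : ∀ i m, θ i m = pA ν (ang (B.g i)) m - dF (fun y => (W i y : ℂ)) m) :
    b ≤ Module.finrank ℝ (Submodule.span ℝ (range θ)) + ∑ x ∈ P, n x := by
  obtain ⟨s, t, hst⟩ := fibres (ν := ν) P n hP hR
  have : Module.Finite ℝ (Submodule.span ℝ (range θ)) :=
    Module.Finite.span_of_finite ℝ (finite_range θ)
  let Φ : (Fin b → ℝ) →ₗ[ℝ] Submodule.span ℝ (range θ) × ((Σ x : P, Fin (n x)) → ℝ) :=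
    Fintype.linearCombination ℝ fun i =>
      (⟨θ i, Submodule.subset_span (mem_range_self i)⟩, fun j => W i (s j) - W i (t j))
  have hΦ : Function.Injective Φ := (injective_iff_map_eq_zero Φ).2 fun h h0 => by
    have h1 : ∀ m, ∑ i, h i * θ i m = 0 := fun m => by
      simpa [Φ, Fintype.linearCombination_apply, Prod.fst_sum] using
        congrArg (fun q => (q.1 : ν.M → ℂ) m) h0
    have h2 : ∀ j, ∑ i, h i * (W i (s j) - W i (t j)) = 0 := fun j => by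
      simpa [Φ, Fintype.linearCombination_apply, Prod.snd_sum] using congrArg (fun q => q.2 j) h0
    have e : (fun y => ((∑ i, h i * W i y : ℝ) : ℂ)) = fun y => ∑ i, (h i : ℂ) * (W i y : ℂ) :=
      funext fun y => by push_cast; rfl
    have h3 : ∀ i m, SmF (fun y => (h i : ℂ) * (W i y : ℂ)) m := fun i m =>
      (smF_const _ m).mul (hW i m)
    obtain ⟨f, hf⟩ := descend (ν := ν) (irr_loc K)
      (LocP.sum Finset.univ (fun i => locP_ang (B.circ i)) h) (W := fun y => ∑ i, h i * W i y)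
      (fun m => by rw [e]; exact smF_sum _ fun i _ => h3 i m) (fun m => by
        rw [e, dF_sum _ fun i _ => h3 i m, pA_sum, ← sub_eq_zero, ← h1 m,
          ← Finset.sum_sub_distrib]
        exact Finset.sum_congr rfl fun i _ => by rw [dF_cmul _ (hW i m), hθ, mul_sub])
      (hst _ fun j => by
        rw [← sub_eq_zero, ← h2 j, ← Finset.sum_sub_distrib]
        exact Finset.sum_congr rfl fun i _ => (mul_sub _ _ _).symm)
    exact hL X μ hμ w hw b B K α hα hp h f hf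
  have h4 := LinearMap.finrank_le_finrank_of_injective hΦ
  simpa [Finset.sum_attach P n] using h4

end Vale.Agent.P247B.Jmp
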