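import Vale.Agent.P247B.Cal
import Vale.Agent.P247C.RS3

/-!
# P247, block BETTI: partitions of unity on Riemann surfaces
-/

set_option linter.all false

open scoped Topology Manifold ContDiff ComplexConjugate
open Set Filter Metric MeasureTheory Complex

noncomputable section

namespace Vale.Agent.P247B

open Vale.Agent.P247C Vale.Agent.P247C.RT Vale.Agent.P247C.RSp Vale.Agent.P272.K

variable {M : Type} [TopologicalSpace M] [ChartedSpace ℂ M] [IsManifold 𝓘(ℂ) 1 M]

/-- smooth partitions of unity subordinate to charts -/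
structure PU (M : Type) [TopologicalSpace M] [ChartedSpace ℂ M] where
  N : ℕ
  e : Fin N → OpenPartialHomeomorph M ℂ
  ρ : Fin N → M → ℝ
  mem : ∀ i, e i ∈ atlas ℂ M
  smooth : ∀ i m, SmF (fun y => (ρ i y : ℂ)) m
  cont : ∀ i, Continuous (ρ i)
  nonneg : ∀ i x, 0 ≤ ρ i x
  supp : ∀ i, tsupport (ρ i) ⊆ (e i).source
  sum : ∀ x, ∑ i, ρ i x = 1

theorem smF_of_smoothFn {u : M → ℝ} (hu : letI := cs1 M; SmoothFn (n := 1) u) (m : M) :
    SmF (fun y => (u y : ℂ)) m := by
  let _ := cs1 M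
  obtain ⟨a1, a2, a3⟩ := ch_facts m
  rw [← a2]
  refine smF_of a1 (by rw [a3]; exact one_ne_zero) ?_
  have h := hu (ch1 (chartAt ℂ m)) m ⟨⟨_, chart_mem_atlas ℂ m, rfl⟩, mem_chart_source ℂ m⟩
  exact ofRealCLM.contDiff.contDiffAt.comp _ (ContDiffAt.comp (chartAt ℂ m m)
    (g := fun z => u ((ch1 (chartAt ℂ m)).symm z)) h
    (L1.contDiff.restrict_scalars ℝ).contDiffAt)

theorem exists_pu1 [T2Space M] [CompactSpace M] : Nonempty (PU M) := by
  let _ := cs1 M
  have _ : IsManifold 𝓘(ℂ, Cm 1) ω M := isManifold1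
  obtain ⟨P⟩ := INT.exists_part 1 M
  choose e he he' using P.mem
  refine ⟨⟨P.N, e, P.ρ, he, fun i => smF_of_smoothFn (P.smooth i), P.cont, P.nonneg, fun i => ?_,
    P.sum⟩⟩
  have := P.supp i
  rwa [← he' i] at this

end Vale.Agent.P247B
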