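import Vale.Agent.P247B.Im

/-!
# P247, block BETTI: the residue theorem and the inequality `2 g - 2 ≤ deg K`
-/

set_option linter.all false

open scoped Topology Manifold ContDiff ComplexConjugate
open Set Filter Metric MeasureTheory Complex

noncomputable section

namespace Vale.Agent.P247B

open Vale.Agent.P247C Vale.Agent.P247C.RT Vale.Agent.P247C.RSp

/-- the profile of the cut-off function -/
def prof (r t : ℝ) : ℝ := Real.smoothTransition (2 - 4 * t / r ^ 2)

/-- a radial cut-off function -/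
def cut (r : ℝ) (z : ℂ) : ℂ := (prof r (normSq z) : ℝ)

section plane

variable {r : ℝ} {F G : ℂ → ℂ} {z : ℂ}

theorem prof_cd (r : ℝ) : ContDiff ℝ ∞ (prof r) :=
  Real.smoothTransition.contDiff.comp (by fun_prop)

theorem normSq_cd : ContDiff ℝ ∞ fun z : ℂ => normSq z := by
  simp only [normSq_apply]
  exact (reCLM.contDiff.mul reCLM.contDiff).add (imCLM.contDiff.mul imCLM.contDiff)

theorem cut_cd (r : ℝ) : ContDiff ℝ ∞ (cut r) :=
  ofRealCLM.contDiff.comp ((prof_cd r).comp normSq_cd)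

theorem cut_one (hr : 0 < r) (hz : z ∈ ball (0 : ℂ) (r / 2)) : cut r =ᶠ[𝓝 z] fun _ => 1 := by
  filter_upwards [isOpen_ball.mem_nhds hz] with t ht
  rw [mem_ball_zero_iff] at ht
  rw [cut, prof, Real.smoothTransition.one_of_one_le, ofReal_one]
  have h : 4 * normSq t / r ^ 2 ≤ 1 := by
    rw [div_le_one (by positivity), normSq_eq_norm_sq]
    nlinarith [norm_nonneg t]
  linarith

theorem cut_zero (hr : 0 < r) (hz : z ∉ closedBall (0 : ℂ) (3 / 4 * r)) :
    cut r =ᶠ[𝓝 z] fun _ => 0 := by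
  filter_upwards [isClosed_closedBall.isOpen_compl.mem_nhds hz] with t ht
  rw [mem_compl_iff, mem_closedBall_zero_iff, not_le] at ht
  rw [cut, prof, Real.smoothTransition.zero_of_nonpos, ofReal_zero]
  have h : 2 ≤ 4 * normSq t / r ^ 2 := by
    rw [le_div_iff₀ (by positivity), normSq_eq_norm_sq]
    nlinarith
  linarith

theorem cb_sub (hr : 0 < r) : closedBall (0 : ℂ) (3 / 4 * r) ⊆ ball 0 r :=
  closedBall_subset_ball (by linarith)

theorem dbr_cut (r : ℝ) (z : ℂ) : dbr (cut r) z = (deriv (prof r) (normSq z) : ℝ) * z := by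
  have h1 : HasFDerivAt (fun t : ℂ => normSq t) ((2 * z.re) • reCLM + (2 * z.im) • imCLM) z := by
    refine ((reCLM.hasFDerivAt.fun_mul reCLM.hasFDerivAt).fun_add
      (imCLM.hasFDerivAt.fun_mul imCLM.hasFDerivAt)).congr_fderiv
      (ContinuousLinearMap.ext fun a => ?_)
    simp; ring
  have h2 := ((prof_cd r).differentiable (by simp) (normSq z)).hasDerivAt
  refine (of_has (p := (deriv (prof r) (normSq z) : ℝ) * conj z)
    (ofRealCLM.hasFDerivAt.comp z (h2.comp_hasFDerivAt z h1)) fun a => ?_).2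
  apply Complex.ext <;> simp <;> ring

/-- the residue functional -/
def Rr (r : ℝ) (F : ℂ → ℂ) : ℂ := ∫ z in ball (0 : ℂ) r, dbr (cut r) z * F z

/-- holomorphic on the punctured disc -/
def Pc (r : ℝ) (F : ℂ → ℂ) : Prop := ∀ z ∈ ball (0 : ℂ) r, z ≠ 0 → AnalyticAt ℂ F z

theorem dc_one (hr : 0 < r) (hz : z ∈ ball (0 : ℂ) (r / 2)) : dbr (cut r) z = 0 := by
  rw [dbr_congr (cut_one hr hz), dbr_const]

theorem dc_zero (hr : 0 < r) (hz : z ∉ closedBall (0 : ℂ) (3 / 4 * r)) : dbr (cut r) z = 0 := by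
  rw [dbr_congr (cut_zero hr hz), dbr_const]

theorem Pc.cont (hr : 0 < r) (h : Pc r F) (hz : z ∈ ball (0 : ℂ) r) :
    ContinuousAt (fun t => dbr (cut r) t * F t) z := by
  by_cases h0 : z = 0
  · subst h0
    refine (continuousAt_const (y := (0 : ℂ))).congr ?_
    filter_upwards [ball_mem_nhds (0 : ℂ) (half_pos hr)] with t ht
    rw [dc_one hr ht, zero_mul]
  · exact (cd_dbr (cut_cd r).contDiffAt).continuousAt.mul (h z hz h0).continuousAt

theorem Pc.integ (hr : 0 < r) (h : Pc r F) :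
    IntegrableOn (fun t => dbr (cut r) t * F t) (ball 0 r) :=
  (ContinuousOn.integrableOn_compact (isCompact_closedBall 0 (3 / 4 * r)) fun z hz =>
    (h.cont hr (cb_sub hr hz)).continuousWithinAt).of_forall_sdiff_eq_zero measurableSet_ball
      fun z hz => by rw [dc_zero hr hz.2, zero_mul]

theorem Rr_add (hr : 0 < r) (h : Pc r F) (h' : Pc r G) :
    Rr r (fun z => F z + G z) = Rr r F + Rr r G := by
  unfold Rr
  rw [← integral_add (h.integ hr) (h'.integ hr)]
  simp only [mul_add]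

theorem Rr_cmul (r : ℝ) (c : ℂ) (F : ℂ → ℂ) : Rr r (fun z => c * F z) = c * Rr r F := by
  unfold Rr
  rw [← integral_const_mul]
  simp only [mul_left_comm]

theorem Rr_sum (hr : 0 < r) {ι : Type} (s : Finset ι) {H : ι → ℂ → ℂ} (h : ∀ i ∈ s, Pc r (H i)) :
    Rr r (fun z => ∑ i ∈ s, H i z) = ∑ i ∈ s, Rr r (H i) := by
  unfold Rr
  rw [← integral_finsetSum _ fun i hi => (h i hi).integ hr]
  simp only [Finset.mul_sum]

/-- removable singularities have no residue -/
theorem Rr_zero (hr : 0 < r) (h : Pc r F) (hG : AnalyticAt ℂ G 0) (e : F =ᶠ[𝓝[≠] 0] G) :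
    Rr r F = 0 := by
  set H := Function.update F 0 (G 0) with hH
  have h1 : ∀ z ∈ ball (0 : ℂ) r, AnalyticAt ℂ H z := fun z hz => by
    by_cases h0 : z = 0
    · subst h0
      refine hG.congr ?_
      filter_upwards [eventually_nhdsWithin_iff.1 e] with t ht
      by_cases h0 : t = 0
      · rw [h0, hH, Function.update_self]
      · rw [hH, Function.update_of_ne h0, ht h0]
    · refine (h z hz h0).congr ?_
      filter_upwards [isOpen_ne.mem_nhds h0] with t ht
      rw [hH, Function.update_of_ne ht]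
  rw [← int_dbr_on (f := fun z => cut r z * H z) isOpen_ball (isCompact_closedBall 0 (3 / 4 * r))
    (cb_sub hr) (fun z hz => (cut_cd r).contDiffAt.mul (cd_an (h1 z hz))) fun z _ hz => by
      rw [(cut_zero hr hz).self_of_nhds, zero_mul]]
  refine setIntegral_congr_fun measurableSet_ball fun z hz => ?_
  rw [(d_mul (dif (cut_cd r).contDiffAt) (dif (cd_an (h1 z hz)))).2,
    (d_hol (h1 z hz).differentiableAt).2, mul_zero, add_zero]
  by_cases h0 : z = 0
  · simp only [h0, dc_one hr (mem_ball_self (half_pos hr)), zero_mul]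
  · simp only [hH, Function.update_of_ne h0]

theorem pc_inv (r : ℝ) : Pc r fun z => z⁻¹ := fun z _ h0 => analyticAt_id.inv h0

theorem Rr_inv (hr : 0 < r) : Rr r (fun z => z⁻¹) ≠ 0 := by
  set φ : ℂ → ℝ := fun z => -deriv (prof r) (normSq z) with hφ
  have hc : Continuous φ := (((prof_cd r).continuous_deriv (by simp)).comp
    continuous_normSq).neg
  have hanti : Antitone (prof r) := fun s t hst => Real.smoothTransition.monotone (by
    have : 4 * s / r ^ 2 ≤ 4 * t / r ^ 2 := by gcongr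
    linarith)
  have hn : 0 ≤ φ := fun z => neg_nonneg.2 hanti.deriv_nonpos
  have h0 : ∀ z, z ∉ closedBall (0 : ℂ) (3 / 4 * r) → φ z = 0 := fun z hz => by
    have h1 := dc_zero hr hz
    have h2 : z ≠ 0 := fun h => hz (h ▸ mem_closedBall_self (by positivity))
    rw [dbr_cut, mul_eq_zero, ofReal_eq_zero] at h1
    simp only [hφ, h1.resolve_right h2, neg_zero]
  obtain ⟨t, ht, h1⟩ := exists_deriv_eq_slope (prof r) (show 0 < r ^ 2 by positivity)
    (prof_cd r).continuous.continuousOn ((prof_cd r).differentiable (by simp)).differentiableOn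
  have h2 : φ (Real.sqrt t : ℝ) ≠ 0 := by
    simp only [hφ, normSq_ofReal, Real.mul_self_sqrt ht.1.le, h1, prof]
    rw [mul_div_assoc, div_self (by positivity), Real.smoothTransition.zero_of_nonpos (by norm_num),
      Real.smoothTransition.one_of_one_le (by norm_num)]
    have : 0 < r ^ 2 := by positivity
    simp [this.ne']
  have h3 := hc.integral_pos_of_hasCompactSupport_nonneg_nonzero (μ := volume)
    (HasCompactSupport.intro (isCompact_closedBall _ _) h0) hn h2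
  have h4 : Rr r (fun z => z⁻¹) = -((∫ z, φ z : ℝ) : ℂ) := by
    unfold Rr
    rw [setIntegral_eq_integral_of_forall_compl_eq_zero fun z hz => by
      rw [dc_zero hr fun h => hz (cb_sub hr h), zero_mul], ← integral_complex_ofReal,
      ← integral_neg]
    refine integral_congr_ae ?_
    filter_upwards [compl_mem_ae_iff.2 (measure_singleton (0 : ℂ))] with z hz
    rw [dbr_cut, mul_assoc, mul_inv_cancel₀ hz]
    simp [hφ]
  rw [h4, neg_ne_zero, ofReal_ne_zero]
  exact h3.ne'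

/-- simple poles -/
theorem Rr_pole (hr : 0 < r) (h : Pc r F) (hG : AnalyticAt ℂ G 0)
    (e : F =ᶠ[𝓝[≠] 0] fun z => z⁻¹ * G z) (h0 : Rr r F = 0) : G 0 = 0 := by
  obtain ⟨p, hp⟩ := hG
  have hs : AnalyticAt ℂ (dslope G 0) 0 := ⟨_, hp.has_fpower_series_dslope_fslope⟩
  have h1 := Rr_zero (F := fun z => F z + -G 0 * z⁻¹) hr
    (fun z a b => (h z a b).add (analyticAt_const.mul (pc_inv r z a b))) hs (by
      filter_upwards [e, self_mem_nhdsWithin] with z a b
      rw [a, dslope_of_ne _ b, slope_def_field, sub_zero]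
      ring)
  rw [Rr_add (G := fun z => -G 0 * z⁻¹) hr h fun z a b => analyticAt_const.mul (pc_inv r z a b),
    h0, zero_add, Rr_cmul] at h1
  exact neg_eq_zero.1 ((mul_eq_zero.1 h1).resolve_right (Rr_inv hr))

end plane

variable {M : Type} [TopologicalSpace M] [ChartedSpace ℂ M] [IsManifold 𝓘(ℂ) 1 M]

/-- the centred chart -/
def pl (m : M) (z : ℂ) : M := (chartAt ℂ m).symm (chartAt ℂ m m + z)

/-- the centred coordinate -/
def co (m y : M) : ℂ := chartAt ℂ m y - chartAt ℂ m m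

/-- good radii -/
structure Gr (Z : Set M) (m : M) (r : ℝ) : Prop where
  pos : 0 < r
  sub : ∀ z ∈ ball (0 : ℂ) r, chartAt ℂ m m + z ∈ (chartAt ℂ m).target
  off : ∀ z ∈ ball (0 : ℂ) r, z ≠ 0 → pl m z ∉ Z

theorem pl_zero (m : M) : pl m 0 = m := by
  simp [pl, (chartAt ℂ m).left_inv (mem_chart_source ℂ m)]

theorem exists_gr [T2Space M] {Z : Set M} (hZ : Z.Finite) (m : M) : ∃ r, Gr Z m r := by
  have h1 : ∀ᶠ z in 𝓝 (0 : ℂ), chartAt ℂ m m + z ∈ (chartAt ℂ m).target :=
    (continuous_add_left _).continuousAt.eventually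
      ((chartAt ℂ m).open_target.mem_nhds (by simp))
  have h2 : ContinuousAt (pl m) 0 := ContinuousAt.comp (g := (chartAt ℂ m).symm)
    ((chartAt ℂ m).continuousAt_symm (by simp)) (continuous_add_left _).continuousAt
  have h3 : ∀ᶠ z in 𝓝 (0 : ℂ), pl m z ∉ Z \ {m} := h2.eventually
    ((hZ.subset sdiff_subset).isClosed.isOpen_compl.mem_nhds (by simp [pl_zero]))
  obtain ⟨r, hr, hb⟩ := Metric.eventually_nhds_iff_ball.1 (h1.and h3)
  refine ⟨r, hr, fun z hz => (hb z hz).1, fun z hz h0 h => (hb z hz).2 ⟨h, fun e => h0 ?_⟩⟩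
  have := congrArg (chartAt ℂ m) (show pl m z = m from e)
  rw [pl, (chartAt ℂ m).right_inv (hb z hz).1] at this
  simpa using this

variable {Z : Set M} {m : M} {r : ℝ} {z : ℂ}

theorem Gr.co_pl (h : Gr Z m r) (hz : z ∈ ball (0 : ℂ) r) : co m (pl m z) = z := by
  rw [co, pl, (chartAt ℂ m).right_inv (h.sub z hz), add_sub_cancel_left]

theorem Gr.src (h : Gr Z m r) (hz : z ∈ ball (0 : ℂ) r) : pl m z ∈ (chartAt ℂ m).source :=
  (chartAt ℂ m).map_target (h.sub z hz)

theorem Gr.inj (h : Gr Z m r) : InjOn (pl m) (ball 0 r) := fun a ha b hb e => by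
  rw [← h.co_pl ha, e, h.co_pl hb]

theorem Gr.hol (h : Gr Z m r) (hz : z ∈ ball (0 : ℂ) r) : HolAt (pl m) z ∧ dM (pl m) z ≠ 0 := by
  have h1 := hol_symm (chart_mem_atlas ℂ m) (h.sub z hz)
  refine ⟨HolAt.comp (ζ := fun t => chartAt ℂ m m + t) h1 (by fun_prop), ?_⟩
  rw [show pl m = (chartAt ℂ m).symm ∘ fun t => chartAt ℂ m m + t from rfl,
    dM_comp h1.self (by fun_prop)]
  simpa using dM_symm_ne (chart_mem_atlas ℂ m) (h.sub z hz)

open Classical in
/-- the cut-off function on the surface -/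
def cutM (m : M) (r : ℝ) (y : M) : ℝ :=
  if y ∈ (chartAt ℂ m).source then prof r (normSq (co m y)) else 0

theorem Gr.cut_pl (h : Gr Z m r) (hz : z ∈ ball (0 : ℂ) r) :
    (fun y => (cutM m r y : ℂ)) ∘ pl m =ᶠ[𝓝 z] cut r := by
  filter_upwards [isOpen_ball.mem_nhds hz] with t ht
  simp only [Function.comp_apply, cutM, if_pos (h.src ht), h.co_pl ht, cut]

theorem Gr.cut_off [T2Space M] (h : Gr Z m r) {y : M}
    (hy : y ∉ pl m '' closedBall 0 (3 / 4 * r)) :
    (fun y => (cutM m r y : ℂ)) =ᶠ[𝓝 y] fun _ => 0 := by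
  have h1 : IsCompact (pl m '' closedBall 0 (3 / 4 * r)) :=
    (isCompact_closedBall _ _).image_of_continuousOn fun z hz =>
      (h.hol (cb_sub h.pos hz)).1.self.continuousAt.continuousWithinAt
  filter_upwards [h1.isClosed.isOpen_compl.mem_nhds hy] with t ht
  unfold cutM
  split_ifs with h2
  · refine (cut_zero h.pos fun h3 => ht ⟨_, h3, ?_⟩).self_of_nhds
    rw [pl, co, add_sub_cancel, (chartAt ℂ m).left_inv h2]
  · rfl

theorem Gr.cut_sm [T2Space M] (h : Gr Z m r) (y : M) : SmF (fun y => (cutM m r y : ℂ)) y := by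
  by_cases hy : y ∈ pl m '' closedBall 0 (3 / 4 * r)
  · obtain ⟨z, hz, rfl⟩ := hy
    have hz' := cb_sub h.pos hz
    exact smF_of (h.hol hz').1 (h.hol hz').2
      ((cut_cd r).contDiffAt.congr_of_eventuallyEq (h.cut_pl hz'))
  · exact (smF_const 0 y).congr (h.cut_off hy)

theorem Gr.cut_self (h : Gr Z m r) : (fun y => (cutM m r y : ℂ)) =ᶠ[𝓝 m] fun _ => 1 := by
  have h0 := mem_ball_self (x := (0 : ℂ)) h.pos
  rw [← pl_zero m, ← map_hol (h.hol h0).1 (h.hol h0).2, pl_zero]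
  exact (h.cut_pl h0).trans (cut_one h.pos (mem_ball_self (half_pos h.pos)))

/-- the residue theorem -/
theorem residue [T2Space M] [CompactSpace M] (Z : Finset M) {r : M → ℝ}
    (hr : ∀ m ∈ Z, Gr (Z : Set M) m (r m)) {w : M → ℂ}
    (hw : ∀ σ z, HolAt σ z → dM σ z ≠ 0 → σ z ∉ Z → AnalyticAt ℂ (pbk w σ) z) :
    ∑ m ∈ Z, Rr (r m) (pbk w (pl m)) = 0 := by
  classical
  set χ : M → M → ℝ := fun m => cutM m (r m) with hχ
  set D : M → M → ℂ := fun m y => conj (dF (fun y => (χ m y : ℂ)) y) * w y with hD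
  have hχs : ∀ m ∈ Z, ∀ y, SmF (fun y => (χ m y : ℂ)) y := fun m hm => (hr m hm).cut_sm
  have hwa : ∀ y, y ∉ Z → AnalyticAt ℂ (pbk w (chartAt ℂ y).symm) (chartAt ℂ y y) := fun y hy =>
    hw _ _ (ch_facts y).1 (by rw [(ch_facts y).2.2]; exact one_ne_zero)
      (by rw [(ch_facts y).2.1]; exact hy)
  have hws : ∀ y, y ∉ Z → Sm1 w y := fun y hy => by
    have := sm1_of (ch_facts y).1 (by rw [(ch_facts y).2.2]; exact one_ne_zero) (cd_an (hwa y hy))
    rwa [(ch_facts y).2.1] at this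
  have hloc : ∀ m ∈ Z, ∀ y ∈ Z, (fun y => (χ m y : ℂ)) =ᶠ[𝓝 y]
      fun _ => if m = y then 1 else 0 := by
    intro m hm y hy
    split_ifs with e
    · exact e ▸ (hr m hm).cut_self
    · refine (hr m hm).cut_off fun ⟨z, hz, h⟩ => ?_
      by_cases h0 : z = 0
      · exact e (by rw [← h, h0, pl_zero])
      · exact (hr m hm).off z (cb_sub (hr m hm).pos hz) h0 (h ▸ hy)
  have hD0 : ∀ m y c, (fun y => (χ m y : ℂ)) =ᶠ[𝓝 y] (fun _ => c) → D m =ᶠ[𝓝 y] fun _ => 0 := by
    intro m y c h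
    filter_upwards [h.eventually_nhds] with t ht
    simp only [hD, dF_congr ht, dF_const, map_zero, zero_mul]
  have hDc : ∀ m ∈ Z, ∀ y, C2 (D m) y := by
    intro m hm y
    by_cases hy : y ∈ Z
    · exact (c2_zero y).congr (hD0 m y _ (hloc m hm y hy))
    · exact (c2_pair (hws y hy) (sm1_dF (Eventually.of_forall (hχs m hm)))).congr
        (Eventually.of_forall fun t => mul_comm _ _)
  set ψ : M → ℝ := fun y => ∑ m ∈ Z, χ m y - 1 with hψ
  have hψe : (fun y => (ψ y : ℂ)) = fun y => ∑ m ∈ Z, (χ m y : ℂ) - 1 := by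
    funext y; simp [hψ]
  have hψs : ∀ y, SmF (fun y => (ψ y : ℂ)) y := fun y => by
    rw [hψe]
    exact (smF_sum Z fun m hm => hχs m hm y).sub (smF_const 1 y)
  have hψ0 : ∀ y ∈ Z, (fun y => (ψ y : ℂ) * w y) =ᶠ[𝓝 y] fun _ => 0 := fun y hy => by
    filter_upwards [(Finset.eventually_all Z).2 fun m hm => hloc m hm y hy] with t ht
    rw [congrFun hψe t, Finset.sum_congr rfl ht, Finset.sum_ite_eq', if_pos hy, sub_self, zero_mul]
  have h1 := IM_dB (p := fun y => (ψ y : ℂ) * w y) fun y => by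
    by_cases hy : y ∈ Z
    · exact (sm1_zero y).congr (hψ0 y hy)
    · exact (hws y hy).mul (hψs y)
  have h2 : dB (fun y => (ψ y : ℂ) * w y) = fun y => ∑ m ∈ Z, D m y := by
    funext y
    by_cases hy : y ∈ Z
    · rw [dB_congr (hψ0 y hy), Finset.sum_eq_zero fun m hm =>
        (hD0 m y _ (hloc m hm y hy)).self_of_nhds]
      exact dB_hol (fun σ z _ => analyticAt_const.congr (f := fun _ => 0)
        (Eventually.of_forall fun t => (zero_mul _).symm)) y
    · have h3 : dB w y = 0 := (d_hol (hwa y hy).differentiableAt).2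
      rw [dB_mul (hψs y) (hws y hy), h3, mul_zero, add_zero, hψe, dF_sub
        (smF_sum Z fun m hm => hχs m hm y) (smF_const 1 y), dF_const, sub_zero,
        dF_sum Z fun m hm => hχs m hm y, map_sum, Finset.sum_mul]
  rw [h2, IM_sum Z hDc] at h1
  rw [← h1]
  refine Finset.sum_congr rfl fun m hm => ?_
  have g := hr m hm
  rw [IM_plot isOpen_ball (fun z hz => (g.hol hz).1) g.inj (isCompact_closedBall _ _) (cb_sub g.pos)
    (hDc m hm) fun y hy => (hD0 m y _ (g.cut_off hy)).self_of_nhds]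
  refine setIntegral_congr_fun measurableSet_ball fun z hz => ?_
  have h4 : DifferentiableAt ℝ (fun t => prof (r m) (normSq t)) z :=
    ((prof_cd _).comp normSq_cd).differentiable (by simp) z
  have h5 : D m = fun y => w y * conj (dF (fun y => (χ m y : ℂ)) y) :=
    funext fun _ => mul_comm _ _
  simp only [h5, pb2_pair]
  rw [pbk_dF (g.hol hz).1 (hχs m hm _), del_congr (g.cut_pl hz), mul_comm]
  exact congrArg _ (dbr_real h4)

theorem mdiff_of_plot {σ : ℂ → M} {F : M → ℂ} (h : HolAt σ z) (hd : dM σ z ≠ 0)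
    (hF : AnalyticAt ℂ (F ∘ σ) z) : MDifferentiableAt 𝓘(ℂ) 𝓘(ℂ) F (σ z) := by
  obtain ⟨a1, a2, -⟩ := ch_facts (σ z)
  obtain ⟨ζ, a, b, -, c, -⟩ := fac2 a1 h a2 hd
  have hm := mem_chart_source ℂ (σ z)
  have h1 : DifferentiableAt ℂ (F ∘ (chartAt ℂ (σ z)).symm) (chartAt ℂ (σ z) (σ z)) :=
    (hF.comp_of_eq a b).differentiableAt.congr_of_eventuallyEq (c F)
  refine (h1.mdifferentiableAt.comp _ (hol_chart (chart_mem_atlas ℂ _) hm).self).congr_of_eventuallyEq
    ?_
  filter_upwards [(chartAt ℂ (σ z)).open_source.mem_nhds hm] with y hy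
  simp [(chartAt ℂ (σ z)).left_inv hy]

theorem pbk_quot (a b c : M → ℂ) {σ : ℂ → M} (hd : dM σ z ≠ 0) :
    pbk (fun y => a y * (b y * (c y)⁻¹)) σ z = pbk a σ z * (pbk b σ z * (pbk c σ z)⁻¹) := by
  simp only [pbk, mul_inv]
  field_simp

theorem orth_rank {ι H : Type} [Fintype ι] [AddCommGroup H] [Module ℂ H]
    (Φ Ψ : H →ₗ[ℂ] (ι → ℂ)) (h : ∀ a b, ∑ i, Φ a i * Ψ b i = 0) :
    Module.finrank ℂ (LinearMap.range Φ) + Module.finrank ℂ (LinearMap.range Ψ) ≤
      Fintype.card ι := by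
  classical
  have h1 := Subspace.finrank_add_finrank_dualAnnihilator_eq (LinearMap.range Ψ)
  have h2 : (LinearMap.range Φ).map (Pi.basisFun ℂ ι).toDual ≤
      (LinearMap.range Ψ).dualAnnihilator := by
    rintro _ ⟨_, ⟨a, rfl⟩, rfl⟩
    rw [Submodule.mem_dualAnnihilator]
    rintro _ ⟨b, rfl⟩
    rw [← h a b]
    conv_lhs => rw [← (Pi.basisFun ℂ ι).sum_repr (Ψ b), map_sum]
    refine Finset.sum_congr rfl fun i _ => ?_
    rw [map_smul, Module.Basis.toDual_apply_left]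
    simp [mul_comm]
  have h3 := Submodule.finrank_mono h2
  rw [← (Submodule.equivMapOfInjective _ (Pi.basisFun ℂ ι).toDual_injective _).finrank_eq] at h3
  rw [Module.finrank_fintype_fun_eq_card] at h1
  omega

theorem rank_le {V W : Type} [AddCommGroup V] [Module ℂ V] [AddCommGroup W] [Module ℂ W]
    (H : Submodule ℂ V) [FiniteDimensional ℂ H] (Φ : H →ₗ[ℂ] W) {θ : V}
    (h : ∀ a : H, Φ a = 0 → ∃ c : ℂ, c • θ = a) :
    Module.finrank ℂ H ≤ Module.finrank ℂ (LinearMap.range Φ) + 1 := by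
  have h1 := LinearMap.finrank_range_add_finrank_ker Φ
  have h2 : (LinearMap.ker Φ).map H.subtype ≤ Submodule.span ℂ {θ} := by
    rintro _ ⟨a, ha, rfl⟩
    exact Submodule.mem_span_singleton.2 (h a ha)
  have h3 := Submodule.finrank_mono h2
  rw [Submodule.finrank_map_subtype_eq] at h3
  have h4 : Module.finrank ℂ (Submodule.span ℂ {θ}) ≤ 1 := by
    simpa using finrank_span_le_card (R := ℂ) {θ}
  omega

/-- `2 g - 2 ≤ deg K` -/
theorem res_ineq [T2Space M] [CompactSpace M] [ConnectedSpace M] {θ : M → ℂ} (hθ : HolForm θ)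
    {ord : M → ℤ} (hm : MVF (fun m => (θ m)⁻¹) ord {m | θ m = 0}) (h0 : ∀ m, θ m = 0 → 0 < ord m)
    (H : Submodule ℂ (M → ℂ)) [FiniteDimensional ℂ H] (hH : ∀ η ∈ H, HolForm η) :
    2 * (Module.finrank ℂ H : ℤ) ≤ ∑ m ∈ hm.fin.toFinset, ord m + 2 := by
  classical
  set Z := hm.fin.toFinset with hZ
  have hZm : ∀ m, m ∈ Z ↔ θ m = 0 := fun m => hm.fin.mem_toFinset
  choose r hr using exists_gr Z.finite_toSet
  have b0 : ∀ m, (0 : ℂ) ∈ ball (0 : ℂ) (r m) := fun m => mem_ball_self (hr m).pos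
  set n : M → ℕ := fun m => (ord m).toNat with hn
  have hno : ∀ m ∈ Z, (n m : ℤ) = ord m := fun m h => Int.toNat_of_nonneg (h0 m ((hZm m).1 h)).le
  have hg : ∀ m, ∃ g : ℂ → ℂ, AnalyticAt ℂ g 0 ∧ g 0 ≠ 0 ∧ (m ∈ Z →
      ∀ᶠ z in 𝓝[≠] (0 : ℂ), z ^ n m * (pbk θ (pl m) z)⁻¹ = g z) := fun m => by
    obtain ⟨g, g1, g2, g3, -⟩ := hm.loc (pl m) ((hr m).hol (b0 m)).1 ((hr m).hol (b0 m)).2
    refine ⟨g, g1, g2, fun h => ?_⟩
    filter_upwards [g3, self_mem_nhdsWithin] with z a b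
    rw [pl_zero, ← hno m h, zpow_neg, zpow_natCast, div_eq_mul_inv, ← mul_inv] at a
    rw [pbk, a, mul_inv_cancel_left₀ (pow_ne_zero _ b)]
  choose g g1 g2 g3 using hg
  have han : ∀ η, HolForm η → ∀ m, ∀ z ∈ ball (0 : ℂ) (r m), AnalyticAt ℂ (pbk η (pl m)) z :=
    fun η h m z hz => h _ _ ((hr m).hol hz).1
  have hpc : ∀ η, HolForm η → ∀ m, ∀ f : ℂ → ℂ, (∀ z ∈ ball (0 : ℂ) (r m), AnalyticAt ℂ f z) →
      Pc (r m) fun z => f z * (pbk η (pl m) z * (pbk θ (pl m) z)⁻¹) := fun η h m f hf z hz hz0 =>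
    (hf z hz).mul ((han η h m z hz).mul ((han θ hθ m z hz).inv (mul_ne_zero
      (fun e => (hr m).off z hz hz0 ((hZm _).2 e)) ((hr m).hol hz).2)))
  have hpw : ∀ (k : ℕ) m, ∀ z ∈ ball (0 : ℂ) (r m), AnalyticAt ℂ (fun z : ℂ => z ^ k) z :=
    fun k m z _ => analyticAt_id.pow k
  have hdiv : ∀ η, HolForm η → (∀ m ∈ Z, ∃ h, AnalyticAt ℂ h 0 ∧
      ∀ᶠ z in 𝓝 (0 : ℂ), pbk η (pl m) z = z ^ n m * h z) → ∃ c : ℂ, c • θ = η := by
    intro η hη hh
    choose! h h1 h2 using hh
    set F : M → ℂ := fun y => if y ∈ Z then h y 0 * g y 0 else η y * (θ y)⁻¹ with hF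
    have hq : ∀ m, ∀ z ∈ ball (0 : ℂ) (r m), pl m z ∉ Z →
        F (pl m z) = pbk η (pl m) z * (pbk θ (pl m) z)⁻¹ := fun m z hz a => by
      have := ((hr m).hol hz).2
      simp only [hF, if_neg a, pbk, mul_inv]
      field_simp
    have hFd : MDifferentiable 𝓘(ℂ) 𝓘(ℂ) F := fun m => by
      rw [← pl_zero m]
      refine mdiff_of_plot ((hr m).hol (b0 m)).1 ((hr m).hol (b0 m)).2 ?_
      by_cases hmZ : m ∈ Z
      · refine ((h1 m hmZ).mul (g1 m)).congr ?_
        filter_upwards [h2 m hmZ, eventually_nhdsWithin_iff.1 (g3 m hmZ),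
          ball_mem_nhds _ (hr m).pos] with z a b c
        by_cases hz : z = 0
        · simp only [hz, Function.comp_apply, pl_zero, hF, if_pos hmZ, Pi.mul_apply]
        · rw [Function.comp_apply, hq m z c ((hr m).off z c hz), a, Pi.mul_apply, ← b hz]
          ring
      · refine ((han η hη m 0 (b0 m)).mul ((han θ hθ m 0 (b0 m)).inv (mul_ne_zero
          (by rw [pl_zero]; exact fun e => hmZ ((hZm _).2 e)) ((hr m).hol (b0 m)).2))).congr ?_
        filter_upwards [ball_mem_nhds _ (hr m).pos] with z c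
        refine (hq m z c ?_).symm
        by_cases hz : z = 0
        · rwa [hz, pl_zero]
        · exact (hr m).off z c hz
    obtain ⟨c, hc⟩ := hFd.exists_eq_const_of_compactSpace
    refine ⟨c, funext fun y => ?_⟩
    by_cases hy : y ∈ Z
    · have a := (h2 y hy).self_of_nhds
      have b : n y ≠ 0 := by
        have := hno y hy
        have := h0 y ((hZm y).1 hy)
        omega
      rw [zero_pow b, zero_mul, pbk, pl_zero] at a
      rw [Pi.smul_apply, (hZm y).1 hy, smul_zero,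
        (mul_eq_zero.1 a).resolve_right ((hr y).hol (b0 y)).2]
    · have a : F y = c := congrFun hc y
      simp only [hF, if_neg hy] at a
      rw [Pi.smul_apply, ← a, smul_eq_mul, inv_mul_cancel_right₀ fun e => hy ((hZm _).2 e)]
  have hsm : ∀ (c : ℂ) (η : M → ℂ) (σ : ℂ → M), pbk (c • η) σ = fun z => c * pbk η σ z :=
    fun c η σ => funext fun z => mul_assoc _ _ _
  let Φ : H →ₗ[ℂ] ((Σ m : Z, Fin (n m)) → ℂ) :=
    { toFun := fun η i => Rr (r i.1) fun z => z ^ (i.2 : ℕ) *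
        (pbk η (pl i.1.1) z * (pbk θ (pl i.1.1) z)⁻¹)
      map_add' := fun a b => funext fun i => by
        rw [Pi.add_apply, ← Rr_add (hr _).pos (hpc _ (hH _ a.2) _ _ (hpw _ _))
          (hpc _ (hH _ b.2) _ _ (hpw _ _))]
        congr 1; funext z
        simp only [pbk, Submodule.coe_add, Pi.add_apply]; ring
      map_smul' := fun c a => funext fun i => by
        rw [RingHom.id_apply, Pi.smul_apply, smul_eq_mul, ← Rr_cmul]
        congr 1; funext z
        simp only [pbk, Submodule.coe_smul, Pi.smul_apply, smul_eq_mul]; ring }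
  let Ψ : H →ₗ[ℂ] ((Σ m : Z, Fin (n m)) → ℂ) :=
    { toFun := fun η i => ((i.2 : ℕ).factorial : ℂ)⁻¹ * iteratedDeriv i.2 (pbk η (pl i.1.1)) 0
      map_add' := fun a b => funext fun i => by
        rw [Pi.add_apply, ← mul_add, ← iteratedDeriv_fun_add
          (han _ (hH _ a.2) _ 0 (b0 _)).contDiffAt (han _ (hH _ b.2) _ 0 (b0 _)).contDiffAt,
          ← pbk_add]
        rfl
      map_smul' := fun c a => funext fun i => by
        rw [RingHom.id_apply, Pi.smul_apply, smul_eq_mul, Submodule.coe_smul, hsm,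
          iteratedDeriv_const_mul_field]
        ring }
  have htay : ∀ a : H, ∀ m : Z, ∃ h, AnalyticAt ℂ h 0 ∧ ∀ᶠ z in 𝓝 (0 : ℂ),
      pbk a (pl m.1) z = ∑ k : Fin (n m), Ψ a ⟨m, k⟩ * z ^ (k : ℕ) + z ^ n m * h z := by
    intro a m
    obtain ⟨h, h1, h2⟩ :=
      (han _ (hH _ a.2) m 0 (b0 _)).exists_eventuallyEq_sum_add_pow_mul (n m)
    refine ⟨h, h1, h2.mono fun z hz => ?_⟩
    rw [hz, Finset.sum_range, smul_eq_mul]
    congr 1
    refine Finset.sum_congr rfl fun k _ => ?_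
    show _ = ((k : ℕ).factorial : ℂ)⁻¹ * iteratedDeriv k (pbk a (pl m.1)) 0 * _
    rw [smul_eq_mul]; ring
  have k1 := rank_le H Ψ (θ := θ) fun a ha => hdiv _ (hH _ a.2) fun m hm => by
    obtain ⟨h, h1, h2⟩ := htay a ⟨m, hm⟩
    exact ⟨h, h1, h2.mono fun z hz => by simpa [ha] using hz⟩
  have k2 := rank_le H Φ (θ := θ) fun a ha => hdiv _ (hH _ a.2) fun m hm => by
    by_cases hz : ∀ᶠ z in 𝓝 (0 : ℂ), pbk a (pl m) z = 0
    · exact ⟨fun _ => 0, analyticAt_const, hz.mono fun z h => by rw [h, mul_zero]⟩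
    obtain ⟨s, h, h1, h2, h3⟩ :=
      (han _ (hH _ a.2) m 0 (b0 _)).exists_eventuallyEq_pow_smul_nonzero_iff.2 hz
    by_cases hs : s < n m
    · refine absurd (Rr_pole (G := fun z => h z * g m z) (hr m).pos
        (hpc _ (hH _ a.2) m _ (hpw (n m - 1 - s) m)) (h1.mul (g1 m)) ?_
        (congrFun ha ⟨⟨m, hm⟩, ⟨n m - 1 - s, by show _ < n m; omega⟩⟩)) (mul_ne_zero h2 (g2 m))
      filter_upwards [mem_nhdsWithin_of_mem_nhds h3, g3 m hm, self_mem_nhdsWithin] with z a b c
      have e : z ^ n m = z ^ (n m - 1 - s) * z ^ s * z := by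
        rw [← pow_add, ← pow_succ]; congr 1; omega
      have c' : z ≠ 0 := c
      rw [a, ← b, e, sub_zero, smul_eq_mul]
      field_simp
    · refine ⟨fun z => z ^ (s - n m) * h z, (analyticAt_id.pow _).mul h1, h3.mono fun z a => ?_⟩
      rw [a, sub_zero, smul_eq_mul, ← mul_assoc, ← pow_add]
      congr 2; omega
  have k3 := orth_rank Φ Ψ fun a b => by
    have h1 := residue Z (fun m _ => hr m) (w := fun y => b.1 y * (a.1 y * (θ y)⁻¹))
      fun σ z c d e => ((hH _ b.2 σ z c).mul ((hH _ a.2 σ z c).mul ((hθ σ z c).inv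
        (mul_ne_zero (fun f => e ((hZm _).2 f)) d)))).congr
          ((ev_dM c d).mono fun t ht => (pbk_quot _ _ _ ht).symm)
    rw [← h1, Fintype.sum_sigma, ← Finset.sum_coe_sort Z]
    refine Finset.sum_congr rfl fun m _ => ?_
    obtain ⟨h, h2, h3⟩ := htay b m
    have p1 := hpc _ (hH _ a.2) m (fun z => ∑ k : Fin (n m), Ψ b ⟨m, k⟩ * z ^ (k : ℕ))
      fun z hz => Finset.analyticAt_fun_sum _ fun k _ => analyticAt_const.mul (hpw _ _ z hz)
    have p2 := hpc _ (hH _ a.2) m (fun z => pbk b (pl m.1) z -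
      ∑ k : Fin (n m), Ψ b ⟨m, k⟩ * z ^ (k : ℕ)) fun z hz => (han _ (hH _ b.2) m z hz).sub
        (Finset.analyticAt_fun_sum _ fun k _ => analyticAt_const.mul (hpw _ _ z hz))
    have p3 := Rr_zero (G := fun z => h z * (pbk a (pl m.1) z * g m z)) (hr m).pos p2
      (h2.mul ((han _ (hH _ a.2) m 0 (b0 _)).mul (g1 m))) (by
        filter_upwards [mem_nhdsWithin_of_mem_nhds h3, g3 m m.2] with z c d
        rw [c, ← d]; ring)
    have p4 := Rr_add (hr m).pos p1 p2
    rw [p3, add_zero] at p4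
    have p5 : Rr (r m) (pbk (fun y => b.1 y * (a.1 y * (θ y)⁻¹)) (pl m.1)) = _ :=
      Eq.trans (setIntegral_congr_fun measurableSet_ball fun z hz => by
        simp only [pbk_quot _ _ _ ((hr m).hol hz).2]; ring) p4
    rw [p5]
    simp only [Finset.sum_mul, mul_assoc]
    rw [Rr_sum (hr m).pos _ (H := fun (k : Fin (n m)) z => Ψ b ⟨m, k⟩ * (z ^ (k : ℕ) *
      (pbk a (pl m.1) z * (pbk θ (pl m.1) z)⁻¹))) fun k _ z c d =>
        analyticAt_const.mul (hpc _ (hH _ a.2) m _ (hpw k m) z c d)]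
    exact Finset.sum_congr rfl fun k _ => by rw [Rr_cmul, mul_comm]; rfl
  rw [Fintype.card_sigma] at k3
  simp only [Fintype.card_fin] at k3
  rw [← Finset.sum_congr rfl hno, ← Nat.cast_sum, ← Finset.sum_coe_sort Z]
  omega

end Vale.Agent.P247B
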