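import Vale.Agent.P247B.Pu

/-!
# P247, block BETTI: row RSH (Hodge decomposition on a compact Riemann surface)
-/

set_option linter.all false

open scoped Topology Manifold ContDiff ComplexConjugate
open Set Filter Metric MeasureTheory Complex

noncomputable section

namespace Vale.Agent.P247B.Rsh

open Vale.Agent.P247C Vale.Agent.P247C.RT Vale.Agent.P247C.RSp Vale.Agent.P272.K

theorem d_L1 (F : Cm 1 → ℂ) (z : ℂ) :
    del (F ∘ L1) z = dz 0 F (L1 z) ∧ dbr (F ∘ L1) z = dzb 0 F (L1 z) := by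
  let L : ℂ ≃L[ℝ] Cm 1 := (ContinuousLinearEquiv.funUnique (Fin 1) ℝ ℂ).symm
  have h : fderiv ℝ (F ∘ L1) z = (fderiv ℝ F (L1 z)).comp (L : ℂ →L[ℝ] Cm 1) :=
    L.comp_right_fderiv (f := F) (x := z)
  have h1 : ∀ a : ℂ, (L : ℂ →L[ℝ] Cm 1) a = Pi.single 0 a := fun a => by
    funext i
    rw [Subsingleton.elim i 0, Pi.single_eq_same]
    rfl
  simp only [del, dbr, dz, dzb, h, ContinuousLinearMap.comp_apply, h1, and_self]

theorem hess_L1 {u : Cm 1 → ℝ} {z : ℂ} (hu : ContDiffAt ℝ ∞ (fun t => (u (L1 t) : ℂ)) z) :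
    dbr (del fun t => (u (L1 t) : ℂ)) z = cHess u (L1 z) 0 0 := by
  rw [dbr_del hu, INT.cHess_apply, ← (d_L1 _ z).1]
  congr 1
  funext t
  exact (d_L1 (fun y => (u y : ℂ)) t).2

variable {M : Type} [TopologicalSpace M] [ChartedSpace ℂ M] [IsManifold 𝓘(ℂ) 1 M]

theorem lap_eq {W : M → ℂ} (hW : ∀ m, SmF W m) {σ : ℂ → M} {z : ℂ} (h : HolAt σ z) :
    pb2 (dB (dF W)) σ z = dbr (del (W ∘ σ)) z := by
  rw [pb2_dB h (sm1_dF (Eventually.of_forall hW))]
  refine dbr_congr ?_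
  filter_upwards [h.ev] with t a using pbk_dF a (hW _)

variable [T2Space M] [CompactSpace M] [ConnectedSpace M]

/-- the Poisson equation -/
theorem poissonC {e : OpenPartialHomeomorph M ℂ} (he : e ∈ atlas ℂ M) {φ : ℂ → ℝ}
    (hφ : ContDiff ℝ ∞ φ) {C : Set ℂ} (hC : IsCompact C) (hCe : C ⊆ e.target)
    (h0 : ∀ z, z ∉ C → φ z = 0) (hI : ∫ z, φ z = 0) :
    ∃ W : M → ℝ, (∀ m, SmF (fun y => (W y : ℂ)) m) ∧
      (∀ z ∈ e.target, pb2 (dB (dF fun y => (W y : ℂ))) e.symm z = φ z) ∧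
      ∀ m, m ∉ e.symm '' C → dB (dF fun y => (W y : ℂ)) m = 0 := by
  let _ := cs1 M
  have _ : IsManifold 𝓘(ℂ, Cm 1) ω M := isManifold1
  have he1 : ch1 e ∈ atlas (Cm 1) M := ⟨e, he, rfl⟩
  obtain ⟨W, hW, h1, h2⟩ := poisson he1
    (φ := fun z => φ (L1.symm z)) (hφ.comp (L1.symm.contDiff.restrict_scalars ℝ))
    (hC.image L1.continuous) (by rintro _ ⟨z, hz, rfl⟩; exact hCe hz)
    (fun z hz => h0 _ fun h => hz ⟨_, h, L1.apply_symm_apply z⟩)
    (((volume_preserving_funUnique (Fin 1) ℂ).integral_comp' φ).trans hI)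
  have hs := smF_of_smoothFn hW
  have key : ∀ e' ∈ atlas ℂ M, ∀ z ∈ e'.target, pb2 (dB (dF fun y => (W y : ℂ))) e'.symm z =
      cHess (fun t => W ((ch1 e').symm t)) (L1 z) 0 0 := fun e' he' z hz => by
    rw [lap_eq hs (hol_symm he' hz)]
    exact hess_L1 (u := fun t => W ((ch1 e').symm t)) (hs _ _ _ (hol_symm he' hz) rfl)
  refine ⟨W, hs, fun z hz => (key e he z hz).trans (h1 (L1 z) hz), fun m hm => ?_⟩
  obtain ⟨-, a2, a3⟩ := ch_facts m
  have h3 := key _ (chart_mem_atlas ℂ m) _ (mem_chart_target ℂ m)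
  rw [pb2, a2, a3, map_one, mul_one, mul_one] at h3
  have h4 := h2 (ch1 (chartAt ℂ m)) m ⟨⟨_, chart_mem_atlas ℂ m, rfl⟩, mem_chart_source ℂ m⟩
    (by rintro ⟨_, ⟨z, hz, rfl⟩, h⟩; exact hm ⟨z, hz, h⟩)
  exact h3.trans (congrFun (congrFun h4 0) 0)

/-- the case of a form supported in a chart -/
theorem one {e : OpenPartialHomeomorph M ℂ} (he : e ∈ atlas ℂ M) {q : M → ℂ} (hq : ∀ m, Sm1 q m)
    {K : Set M} (hK : IsClosed K) (hKe : K ⊆ e.source) (h0 : ∀ m, m ∉ K → q m = 0) :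
    ∃ W : M → ℝ, (∀ m, SmF (fun y => (W y : ℂ)) m) ∧
      ∀ m, dB (dF fun y => (W y : ℂ)) m = (dB q m).re := by
  classical
  have hC : IsCompact (e '' K) := hK.isCompact.image_of_continuousOn (e.continuousOn.mono hKe)
  have hCe : e '' K ⊆ e.target := by
    rintro _ ⟨m, hm, rfl⟩
    exact e.map_source (hKe hm)
  set α : ℂ → ℂ := fun z => if z ∈ e.target then pbk q e.symm z else 0 with hα
  have α1 : ∀ z ∈ e.target, α =ᶠ[𝓝 z] pbk q e.symm := fun z hz => by
    filter_upwards [e.open_target.mem_nhds hz] with t ht using if_pos ht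
  have α0 : ∀ z, z ∉ e '' K → α =ᶠ[𝓝 z] fun _ => 0 := fun z hz => by
    filter_upwards [hC.isClosed.isOpen_compl.mem_nhds hz] with t ht
    simp only [hα]
    split_ifs with h
    · rw [pbk, h0 _ fun a => ht ⟨_, a, e.right_inv h⟩, zero_mul]
    · rfl
  have αs : ContDiff ℝ ∞ α := contDiff_iff_contDiffAt.2 fun z => by
    by_cases hz : z ∈ e.target
    · exact (hq _ _ _ (hol_symm he hz) rfl).congr_of_eventuallyEq (α1 z hz)
    · exact contDiffAt_const.congr_of_eventuallyEq (α0 z fun h => hz (hCe h))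
  have ds : ContDiff ℝ ∞ (dbr α) := contDiff_iff_contDiffAt.2 fun z => cd_dbr αs.contDiffAt
  have d0 : ∀ z, z ∉ e '' K → dbr α z = 0 := fun z hz => by
    rw [dbr_congr (α0 z hz), dbr_const]
  have hI : ∫ z, (dbr α z).re = 0 := by
    have h2 := integral_re (ds.continuous.integrable_of_hasCompactSupport (μ := volume)
      (HasCompactSupport.intro hC d0))
    rw [int_dbr αs (HasCompactSupport.intro hC fun z hz => (α0 z hz).self_of_nhds)] at h2
    simpa using h2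
  obtain ⟨W, hW, h1, h2⟩ := poissonC he (φ := fun z => (dbr α z).re) (reCLM.contDiff.comp ds) hC
    hCe (fun z hz => by simp [d0 z hz]) hI
  refine ⟨W, hW, fun m => ?_⟩
  by_cases hm : m ∈ e.source
  · have hz := e.map_source hm
    have h3 := h1 _ hz
    rw [dbr_congr (α1 _ hz), ← pb2_dB (hol_symm he hz) (hq _), pb2, pb2, e.left_inv hm,
      mul_conj, re_mul_ofReal, ofReal_mul] at h3
    exact mul_right_cancel₀ (ofReal_ne_zero.2 (normSq_pos.2 (dM_symm_ne he hz)).ne') h3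
  · have hmK : m ∉ K := fun h => hm (hKe h)
    have h3 : dB q m = 0 := by
      rw [dB_congr (p := fun _ => 0) (by
        filter_upwards [hK.isOpen_compl.mem_nhds hmK] with y hy using h0 y hy)]
      have : pbk (fun _ : M => (0 : ℂ)) (chartAt ℂ m).symm = fun _ => 0 :=
        funext fun t => zero_mul _
      rw [dB, this, dbr_const]
    rw [h3, h2 m (by rintro ⟨z, hz, rfl⟩; exact hm (e.map_target (hCe hz)))]
    simp

/-- the Poisson equation `∂̄ ∂ W = Re ∂̄ p` -/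
theorem solve {p : M → ℂ} (hp : ∀ m, Sm1 p m) :
    ∃ W : M → ℝ, (∀ m, SmF (fun y => (W y : ℂ)) m) ∧
      ∀ m, dB (dF fun y => (W y : ℂ)) m = (dB p m).re := by
  obtain ⟨P⟩ : Nonempty (PU M) := exists_pu1
  have hq : ∀ i m, Sm1 (fun y => (P.ρ i y : ℂ) * p y) m := fun i m => Sm1.mul (P.smooth i m) (hp m)
  choose W hW hW' using fun i => one (P.mem i) (hq i) (isClosed_tsupport _) (P.supp i)
    fun m hm => by rw [image_eq_zero_of_notMem_tsupport hm, ofReal_zero, zero_mul]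
  have e1 : (fun y => ((∑ i, W i y : ℝ) : ℂ)) = fun y => ∑ i, (W i y : ℂ) :=
    funext fun y => ofReal_sum _ _
  have e2 : p = fun y => ∑ i, (P.ρ i y : ℂ) * p y := funext fun y => by
    rw [← Finset.sum_mul, ← ofReal_sum, P.sum, ofReal_one, one_mul]
  refine ⟨fun y => ∑ i, W i y, fun m => ?_, fun m => ?_⟩
  · rw [e1]
    exact smF_sum _ fun i _ => hW i m
  · have e3 : dF (fun y => ∑ i, (W i y : ℂ)) = fun y => ∑ i, dF (fun y => (W i y : ℂ)) y :=
      funext fun y => dF_sum _ fun i _ => hW i y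
    rw [e1, e3, dB_sum _ fun i _ => sm1_dF (Eventually.of_forall (hW i))]
    conv_rhs => rw [e2, dB_sum _ fun i _ => hq i m, re_sum, ofReal_sum]
    exact Finset.sum_congr rfl fun i _ => hW' i m

end Vale.Agent.P247B.Rsh

namespace Vale.Agent.P247B

/-- **RSH** -/
theorem rsh : RSH := by
  intro M _ p hp hr
  obtain ⟨W, hW, h⟩ := Rsh.solve hp
  have h1 : ∀ m, Sm1 (dF fun y => (W y : ℂ)) m := fun m => sm1_dF (Eventually.of_forall hW)
  refine ⟨W, hW, hol_of_dB (fun m => (hp m).sub (h1 m)) fun m => ?_⟩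
  rw [dB_sub (hp m) (h1 m), h m]
  exact Complex.ext (by simp) (by simp [hr m])

end Vale.Agent.P247B
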